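import Crest.Agent.R50.Cells

/-!
Consequences of the linear relations between the cell numbers.
-/

set_option autoImplicit false

noncomputable section

namespace Crest.Agent.R50

open List

/-- Admissible lists of four triples of colours. -/
structure Ok (L : List (Fin 10)) (F : List (Fin 10) → Prop) (l : List Lb) : Prop where
  len : l.length = 4
  mem : ∀ v ∈ l, v.x ∈ L ∧ v.y ∈ L ∧ v.z ∈ L
  ne : ∀ u ∈ l, ∀ v ∈ l, u.x ≠ v.y ∧ u.x ≠ v.z ∧ u.y ≠ v.z
  fx : F (l.map Lb.x)
  fy : F (l.map Lb.y)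
  fz : F (l.map Lb.z)

/-- An evaluation functional on cochains. -/
structure Ev (L : List (Fin 10)) (F : List (Fin 10) → Prop) where
  E : (List Lb → ZMod 2) → ZMod 2
  add : ∀ φ ψ, E (fun l => φ l + ψ l) = E φ + E ψ
  van : ∀ φ, (∀ l, Ok L F l → φ l = 0) → E φ = 0
  cob : ∀ γ, E (dl γ) = 0
  top : ∀ ρ : Fin 10 → Fin 6, (∀ u ∈ L, ∀ v ∈ L, ρ u = ρ v → u = v) → E (Bc ρ) = 1
  nodup : L.Nodup
  mono : ∀ l l', F l → (∀ i ∈ l', i ∈ l) → F l'
  no4 : ∀ a b c d e f, [a, b, c, d, e, f] ~ L → ¬ F [a, b, c, d]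
  no33 : ∀ a b c d e f, [a, b, c, d, e, f] ~ L → F [a, b, c] → ¬ F [d, e, f]

namespace Ev

variable {L : List (Fin 10)} {F : List (Fin 10) → Prop} (e : Ev L F)

lemma congr {φ ψ : List Lb → ZMod 2} (h : ∀ l, Ok L F l → φ l = ψ l) : e.E φ = e.E ψ := by
  have h1 := e.van (fun l => φ l + ψ l) fun l hl => by rw [h l hl]; grind
  rw [e.add] at h1
  grind

/-- The cell numbers. -/
def N (A B C : List (Fin 10)) : ZMod 2 :=
  e.E (cup (A.length - 1) (B.length - 1) (T A) (T B) (T C))

lemma N_perm {A B C A' B' C' : List (Fin 10)} (hA : A ~ A') (hB : B ~ B') (hC : C ~ C') :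
    e.N A B C = e.N A' B' C' := by
  rw [N, N, T_perm hA, T_perm hB, T_perm hC, hA.length_eq, hB.length_eq]

lemma N_x {A : List (Fin 10)} (h : ¬ F A) (B C : List (Fin 10)) : e.N A B C = 0 := by
  refine e.van _ fun l hl => ?_
  by_contra h1
  refine h (e.mono _ _ hl.fx fun i hi => ?_)
  have := (T_ne (left_ne_zero_of_mul h1)).mem_iff.mpr hi
  exact (List.take_sublist _ _).map _ |>.subset this

lemma N_y {B : List (Fin 10)} (h : ¬ F B) (A C : List (Fin 10)) : e.N A B C = 0 := by
  refine e.van _ fun l hl => ?_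
  by_contra h1
  refine h (e.mono _ _ hl.fy fun i hi => ?_)
  have := (T_ne (left_ne_zero_of_mul (right_ne_zero_of_mul h1))).mem_iff.mpr hi
  exact ((List.take_sublist _ _).trans (List.drop_sublist _ _)).map _ |>.subset this

lemma N_z {C : List (Fin 10)} (h : ¬ F C) (A B : List (Fin 10)) : e.N A B C = 0 := by
  refine e.van _ fun l hl => ?_
  by_contra h1
  refine h (e.mono _ _ hl.fz fun i hi => ?_)
  have := (T_ne (right_ne_zero_of_mul (right_ne_zero_of_mul h1))).mem_iff.mpr hi
  exact (List.drop_sublist _ _).map _ |>.subset this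

lemma sub_mem {l l' : List Lb} (hs : l' <+ l) {f : Lb → Fin 10} (h : ∀ v ∈ l, f v ∈ L) :
    ∀ u ∈ l'.map f, u ∈ L := by
  intro u hu
  obtain ⟨v, hv, rfl⟩ := List.mem_map.mp hu
  exact h v (hs.subset hv)

lemma sub_ne {l l' l'' : List Lb} (hs : l' <+ l) (hs' : l'' <+ l) {f g : Lb → Fin 10}
    (h : ∀ v ∈ l, ∀ w ∈ l, f v ≠ g w) : ∀ u ∈ l'.map f, u ∉ l''.map g := by
  intro u hu hu'
  obtain ⟨v, hv, rfl⟩ := List.mem_map.mp hu
  obtain ⟨w, hw, h'⟩ := List.mem_map.mp hu'
  exact h v (hs.subset hv) w (hs'.subset hw) h'.symm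

lemma rel (A B C : List (Fin 10)) (m : Fin 10) (h : m :: (A ++ B ++ C) ~ L)
    (hlen : A.length + B.length + C.length = 5) (hA : A ≠ [])
    (hB : B ≠ []) (hC : C ≠ []) :
    e.N (m :: A) B C + e.N A (m :: B) C + e.N A B (m :: C) = 0 := by
  have hA' := List.length_pos_iff.mpr hA
  have hB' := List.length_pos_iff.mpr hB
  have hC' := List.length_pos_iff.mpr hC
  have hn : (m :: (A ++ B ++ C)).Nodup := h.nodup_iff.mpr e.nodup
  have hnA : (m :: A).Nodup := hn.sublist (List.Sublist.cons_cons _ (by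
    rw [List.append_assoc]; exact List.sublist_append_left _ _))
  have hnB : (m :: B).Nodup := hn.sublist (List.Sublist.cons_cons _
    ((List.sublist_append_right _ _).trans (List.sublist_append_left _ _)))
  have hnC : (m :: C).Nodup := hn.sublist (List.Sublist.cons_cons _
    (List.sublist_append_right _ _))
  have hL : ∀ u ∈ L, u = m ∨ u ∈ A ∨ u ∈ B ∨ u ∈ C := by
    intro u hu
    have := h.mem_iff.mpr hu
    simpa [or_assoc] using this
  rw [← e.cob (cup (A.length - 1) (B.length - 1) (T A) (T B) (T C)), N, N, N, ← e.add, ← e.add]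
  refine e.congr fun l hl => ?_
  rw [cup_leibniz _ _ (by omega) _ _ _ l hl.len]
  have e1 : (m :: A).length - 1 = A.length - 1 + 1 := by simp; omega
  have e2 : (m :: B).length - 1 = B.length - 1 + 1 := by simp; omega
  rw [e1, e2]
  have tk : ∀ i j, (l.drop i).take j <+ l := fun i j =>
    (List.take_sublist _ _).trans (List.drop_sublist _ _)
  congr 1
  congr 1
  · unfold cup
    refine (key_T (L := L) hnA ?_ ?_ ?_ ?_).symm
    · intro u hu; have := hL u hu; simp only [List.mem_cons]; tauto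
    · exact sub_mem (List.take_sublist _ _) fun v hv => (hl.mem v hv).1
    · exact sub_ne (List.take_sublist _ _) (tk _ _) fun v hv w hw => (hl.ne v hv w hw).1
    · exact sub_ne (List.take_sublist _ _) (List.drop_sublist _ _)
        fun v hv w hw => (hl.ne v hv w hw).2.1
  · unfold cup
    rw [mul_left_comm, mul_left_comm (T A _)]
    refine (key_T (L := L) hnB ?_ ?_ ?_ ?_).symm
    · intro u hu; have := hL u hu; simp only [List.mem_cons]; tauto
    · exact sub_mem (tk _ _) fun v hv => (hl.mem v hv).2.1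
    · exact sub_ne (tk _ _) (List.take_sublist _ _) fun v hv w hw => (hl.ne w hw v hv).1.symm
    · exact sub_ne (tk _ _) (List.drop_sublist _ _) fun v hv w hw => (hl.ne v hv w hw).2.2
  · unfold cup
    rw [← mul_assoc, ← mul_assoc, mul_comm, mul_comm _ (dl _ _)]
    refine (key_T (L := L) hnC ?_ ?_ ?_ ?_).symm
    · intro u hu; have := hL u hu; simp only [List.mem_cons]; tauto
    · exact sub_mem (List.drop_sublist _ _) fun v hv => (hl.mem v hv).2.2
    · exact sub_ne (List.drop_sublist _ _) (List.take_sublist _ _)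
        fun v hv w hw => (hl.ne w hw v hv).2.1.symm
    · exact sub_ne (List.drop_sublist _ _) (tk _ _) fun v hv w hw => (hl.ne w hw v hv).2.2.symm

lemma N_cup2 {a b c d f g : Fin 10} (h : [a, b, c, d, f, g] ~ L) :
    e.N [a, b, c] [d, f] [g] = e.E (cup2 (T [a, b, c]) (T [d, f])) := by
  refine e.congr fun l hl => ?_
  have hL : ∀ u ∈ L, u ∈ [g] ∨ u ∈ [a, b, c] ∨ u ∈ [d, f] := by
    intro u hu
    have := h.mem_iff.mpr hu
    simp only [List.mem_cons, List.not_mem_nil, or_false] at this ⊢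
    tauto
  have := key_T (A := []) (xs := (l.drop 3).map Lb.z) (ys := (l.take 3).map Lb.x)
    (zs := (l.drop 2).map Lb.y) (List.nodup_singleton g) hL
    (sub_mem (List.drop_sublist _ _) fun v hv => (hl.mem v hv).2.2)
    (sub_ne (List.drop_sublist _ _) (List.take_sublist _ _)
        fun v hv w hw => (hl.ne w hw v hv).2.1.symm)
    (sub_ne (List.drop_sublist _ _) (List.drop_sublist _ _)
      fun v hv w hw => (hl.ne w hw v hv).2.2.symm)
  match l, hl.len, this with
  | [v0, v1, v2, v3], _, this =>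
    have h1 : dl (T ([] : List (Fin 10))) [v3.z] = 1 := by simp [dl, faces, T]
    simp only [List.drop, List.take, List.map_cons, List.map_nil, h1, one_mul] at this
    simp only [cup, cup2, List.length_cons, List.length_nil, List.drop, List.take, List.map_cons,
      List.map_nil, Nat.reduceAdd, Nat.reduceSub]
    rw [this]
    ring

lemma sum_six {a b c d f g : Fin 10} (h : [a, b, c, d, f, g] ~ L) :
    e.N [a, c, f] [b, d] [g] + e.N [a, c, g] [b, d] [f] + e.N [a, c, g] [b, f] [d]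
      + e.N [a, d, g] [b, f] [c] + e.N [a, d, g] [c, f] [b] + e.N [b, d, g] [c, f] [a] = 1 := by
  let G : Fin 6 → Fin 10 := ![a, b, c, d, f, g]
  have hn : [a, b, c, d, f, g].Nodup := h.nodup_iff.mpr e.nodup
  have hG : Function.Injective G := by
    rw [← List.nodup_ofFn]
    simpa [G] using hn
  let ρ : Fin 10 → Fin 6 := Function.invFun G
  have hρ : ∀ u ∈ L, G (ρ u) = u := by
    intro u hu
    apply Function.invFun_eq
    have := h.mem_iff.mpr hu
    simp only [List.mem_cons, List.not_mem_nil, or_false] at this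
    rcases this with rfl | rfl | rfl | rfl | rfl | rfl
    exacts [⟨0, rfl⟩, ⟨1, rfl⟩, ⟨2, rfl⟩, ⟨3, rfl⟩, ⟨4, rfl⟩, ⟨5, rfl⟩]
  have hinj : ∀ u ∈ L, ∀ v ∈ L, ρ u = ρ v → u = v := fun u hu v hv huv => by
    rw [← hρ u hu, ← hρ v hv, huv]
  rw [← e.top ρ hinj, e.N_cup2 (Perm.trans (by lperm) h), e.N_cup2 (Perm.trans (by lperm) h),
    e.N_cup2 (Perm.trans (by lperm) h), e.N_cup2 (Perm.trans (by lperm) h),
    e.N_cup2 (Perm.trans (by lperm) h), e.N_cup2 (Perm.trans (by lperm) h),
    ← e.add, ← e.add, ← e.add, ← e.add, ← e.add]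
  refine e.congr fun l hl => ?_
  have hne : ∀ u ∈ l, ∀ v ∈ l, ρ u.x ≠ ρ v.y := fun u hu v hv huv =>
    (hl.ne u hu v hv).1 (hinj _ (hl.mem u hu).1 _ (hl.mem v hv).2.1 huv)
  match l, hl.len, hl.mem, hne with
  | [v0, v1, v2, v3], _, hm, hne =>
    have hx : [v0.x, v1.x, v2.x] = [ρ v0.x, ρ v1.x, ρ v2.x].map G := by
      simp only [List.map_cons, List.map_nil]
      rw [hρ _ (hm v0 (by simp)).1, hρ _ (hm v1 (by simp)).1, hρ _ (hm v2 (by simp)).1]
    have hy : [v2.y, v3.y] = [ρ v2.y, ρ v3.y].map G := by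
      simp only [List.map_cons, List.map_nil]
      rw [hρ _ (hm v2 (by simp)).2.1, hρ _ (hm v3 (by simp)).2.1]
    simp only [cup2, List.take, List.drop, List.map_cons, List.map_nil, Bc]
    rw [b3_eq _ _ _ _ (hne v0 (by simp) v2 (by simp)) (hne v1 (by simp) v2 (by simp))
      (hne v2 (by simp) v2 (by simp)) _ (hne v0 (by simp) v3 (by simp))
      (hne v1 (by simp) v3 (by simp)) (hne v2 (by simp) v3 (by simp)), hx, hy]
    simp only [← T_map hG (l := [ρ v0.x, ρ v1.x, ρ v2.x]), ← T_map hG (l := [ρ v2.y, ρ v3.y])]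
    rfl

lemma r311 {a b c d f g : Fin 10} (h : [a, b, c, d, f, g] ~ L) :
    e.N [a, b, c] [d, f] [g] = e.N [a, b, c] [f] [d, g] := by
  have h1 := e.rel [a, b, c] [f] [g] d (Perm.trans (by lperm) h) rfl (by simp) (by simp) (by simp)
  rw [e.N_x (e.no4 d a b c f g (Perm.trans (by lperm) h))] at h1
  grind

lemma x_swap {a b c d f g : Fin 10} (h : [a, b, c, d, f, g] ~ L) :
    e.N [a, b, c] [d, f] [g] = e.N [a, b, c] [g, f] [d] := by
  rw [e.r311 h, e.r311 (Perm.trans (by lperm) h)]
  exact e.N_perm (Perm.refl _) (Perm.refl _) (by lperm)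

open Classical in
/-- The indicator of a face. -/
def t (F : List (Fin 10) → Prop) (l : List (Fin 10)) : ZMod 2 := if F l then 1 else 0

include e in
lemma t_perm {l l' : List (Fin 10)} (h : l ~ l') : t F l = t F l' := by
  have : F l ↔ F l' := ⟨fun h' => e.mono _ _ h' fun i hi => h.mem_iff.mpr hi,
    fun h' => e.mono _ _ h' fun i hi => h.mem_iff.mp hi⟩
  unfold t
  rw [propext this]

lemma sum_two {a b c d f g : Fin 10} (h : [a, b, c, d, f, g] ~ L) :
    e.N [a, b, c] [d, f] [g] + e.N [d, f, g] [b, c] [a] = 1 := by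
  have h1 := e.sum_six (a := a) (b := d) (c := b) (d := f) (f := c) (g := g)
    (Perm.trans (by lperm) h)
  have h2 := e.x_swap (a := a) (b := b) (c := g) (d := f) (f := d) (g := c)
    (Perm.trans (by lperm) h)
  have h3 := e.x_swap (a := a) (b := f) (c := g) (d := d) (f := c) (g := b)
    (Perm.trans (by lperm) h)
  have h4 : e.N [a, b, g] [f, d] [c] = e.N [a, b, g] [d, f] [c] :=
    e.N_perm (Perm.refl _) (by lperm) (Perm.refl _)
  have h5 : e.N [a, b, g] [c, d] [f] = e.N [a, b, g] [d, c] [f] :=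
    e.N_perm (Perm.refl _) (by lperm) (Perm.refl _)
  grind

lemma x32 {a b c d f g : Fin 10} (h : [a, b, c, d, f, g] ~ L) :
    e.N [a, b, c] [d, f] [g] = t F [a, b, c] := by
  have h1 := e.sum_two h
  unfold t
  split_ifs with h2
  · rw [e.N_x (e.no33 _ _ _ _ _ _ h h2)] at h1
    simpa using h1
  · exact e.N_x h2 _ _

include e in
lemma t_add {a b c d f g : Fin 10} (h : [a, b, c, d, f, g] ~ L) :
    t F [a, b, c] + t F [d, f, g] = 1 := by
  have h1 := e.sum_two h
  rwa [e.x32 h, e.x32 (Perm.trans (by lperm) h)] at h1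

lemma x31 {a b c d f g : Fin 10} (h : [a, b, c, d, f, g] ~ L) :
    e.N [a, b, c] [d] [f, g] = t F [a, b, c] := by
  rw [← e.r311 (Perm.trans (by lperm) h), e.x32 (Perm.trans (by lperm) h)]

include e in
lemma exch (U : Fin 10 → Fin 10 → Fin 10 → Fin 10 → Fin 10 → Fin 10 → ZMod 2)
    (h12 : ∀ a b c d f g, U a b c d f g = U b a c d f g)
    (h16 : ∀ a b c d f g, [a, b, c, d, f, g] ~ L → U a b c d f g = U g b c d f a)
    (h36 : ∀ a b c d f g, [a, b, c, d, f, g] ~ L → U a b c d f g = U a b g d f c)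
    (h34 : ∀ a b c d f g, U a b c d f g = U a b d c f g)
    (h35 : ∀ a b c d f g, U a b c d f g = U a b f d c g)
    (h0 : ∀ a b c d f g, ¬ F [c, d, f] → U a b c d f g = 0)
    {a b c d f g : Fin 10} (h : [a, b, c, d, f, g] ~ L) : U a b c d f g = 0 := by
  by_cases hF : F [c, d, f]
  swap
  · exact h0 _ _ _ _ _ _ hF
  have h1 := e.no33 c d f b a g (Perm.trans (by lperm) h) hF
  rw [h36 _ _ _ _ _ _ h, h16 _ _ _ _ _ _ (Perm.trans (by lperm) h), h34,
    h36 _ _ _ _ _ _ (Perm.trans (by lperm) h), h12, h16 _ _ _ _ _ _ (Perm.trans (by lperm) h),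
    h35, h36 _ _ _ _ _ _ (Perm.trans (by lperm) h)]
  refine h0 _ _ _ _ _ _ fun h2 => h1 (e.mono _ _ h2 ?_)
  simp

lemma r221 {a b c d f g : Fin 10} (h : [a, b, c, d, f, g] ~ L) :
    t F [g, a, b] + e.N [a, b] [g, c, d] [f] + e.N [a, b] [c, d] [g, f] = 0 := by
  have h1 := e.rel [a, b] [c, d] [f] g (Perm.trans (by lperm) h) rfl (by simp) (by simp) (by simp)
  rwa [e.x32 (Perm.trans (by lperm) h)] at h1

lemma r212 {a b c d f g : Fin 10} (h : [a, b, c, d, f, g] ~ L) :
    t F [d, a, b] + e.N [a, b] [d, c] [f, g] + e.N [a, b] [c] [d, f, g] = 0 := by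
  have h1 := e.rel [a, b] [c] [f, g] d (Perm.trans (by lperm) h) rfl (by simp) (by simp) (by simp)
  rwa [e.x31 (Perm.trans (by lperm) h)] at h1

lemma y23 {a b c d f g : Fin 10} (h : [a, b, c, d, f, g] ~ L) :
    e.N [a, b] [c, d, f] [g] = t F [c, d, f] := by
  have := e.exch (fun a b c d f g => e.N [a, b] [c, d, f] [g] + t F [c, d, f]) ?_ ?_ ?_ ?_ ?_ ?_ h
  · grind
  · intro a b c d f g
    rw [e.N_perm (A := [a, b]) (A' := [b, a]) (by lperm) (Perm.refl _) (Perm.refl _)]
  · intro a b c d f g h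
    have h1 := e.rel [b] [c, d, f] [g] a (Perm.trans (by lperm) h) rfl (by simp) (by simp) (by simp)
    have h2 := e.rel [b] [c, d, f] [a] g (Perm.trans (by lperm) h) rfl (by simp) (by simp) (by simp)
    rw [e.N_y (e.no4 a c d f b g (Perm.trans (by lperm) h))] at h1
    rw [e.N_y (e.no4 g c d f b a (Perm.trans (by lperm) h))] at h2
    have h3 : e.N [b] [c, d, f] [a, g] = e.N [b] [c, d, f] [g, a] :=
      e.N_perm (Perm.refl _) (Perm.refl _) (by lperm)
    grind
  · intro a b c d f g h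
    have h1 := e.r221 (a := a) (b := b) (c := d) (d := f) (f := g) (g := c)
      (Perm.trans (by lperm) h)
    have h2 := e.r221 (a := a) (b := b) (c := d) (d := f) (f := c) (g := g)
      (Perm.trans (by lperm) h)
    have h3 : e.N [a, b] [d, f] [c, g] = e.N [a, b] [d, f] [g, c] :=
      e.N_perm (Perm.refl _) (Perm.refl _) (by lperm)
    have h4 := e.t_add (a := c) (b := a) (c := b) (d := g) (f := d) (g := f)
      (Perm.trans (by lperm) h)
    have h5 := e.t_add (a := g) (b := a) (c := b) (d := c) (f := d) (g := f)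
      (Perm.trans (by lperm) h)
    grind
  · intro a b c d f g
    rw [e.N_perm (B' := [d, c, f]) (Perm.refl _) (by lperm) (Perm.refl _),
      e.t_perm (l' := [d, c, f]) (by lperm)]
  · intro a b c d f g
    rw [e.N_perm (B' := [f, d, c]) (Perm.refl _) (by lperm) (Perm.refl _),
      e.t_perm (l' := [f, d, c]) (by lperm)]
  · intro a b c d f g h
    rw [e.N_y h, t, if_neg h, add_zero]

lemma z23 {a b c d f g : Fin 10} (h : [a, b, c, d, f, g] ~ L) :
    e.N [a, b] [g] [c, d, f] = t F [c, d, f] := by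
  have := e.exch (fun a b c d f g => e.N [a, b] [g] [c, d, f] + t F [c, d, f]) ?_ ?_ ?_ ?_ ?_ ?_ h
  · grind
  · intro a b c d f g
    rw [e.N_perm (A := [a, b]) (A' := [b, a]) (by lperm) (Perm.refl _) (Perm.refl _)]
  · intro a b c d f g h
    have h1 := e.rel [b] [g] [c, d, f] a (Perm.trans (by lperm) h) rfl (by simp) (by simp) (by simp)
    have h2 := e.rel [b] [a] [c, d, f] g (Perm.trans (by lperm) h) rfl (by simp) (by simp) (by simp)
    rw [e.N_z (e.no4 a c d f b g (Perm.trans (by lperm) h))] at h1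
    rw [e.N_z (e.no4 g c d f b a (Perm.trans (by lperm) h))] at h2
    have h3 : e.N [b] [a, g] [c, d, f] = e.N [b] [g, a] [c, d, f] :=
      e.N_perm (Perm.refl _) (by lperm) (Perm.refl _)
    grind
  · intro a b c d f g h
    have h1 := e.r212 (a := a) (b := b) (c := g) (d := c) (f := d) (g := f)
      (Perm.trans (by lperm) h)
    have h2 := e.r212 (a := a) (b := b) (c := c) (d := g) (f := d) (g := f)
      (Perm.trans (by lperm) h)
    have h3 : e.N [a, b] [c, g] [d, f] = e.N [a, b] [g, c] [d, f] :=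
      e.N_perm (Perm.refl _) (by lperm) (Perm.refl _)
    have h4 := e.t_add (a := c) (b := a) (c := b) (d := g) (f := d) (g := f)
      (Perm.trans (by lperm) h)
    have h5 := e.t_add (a := g) (b := a) (c := b) (d := c) (f := d) (g := f)
      (Perm.trans (by lperm) h)
    grind
  · intro a b c d f g
    rw [e.N_perm (C' := [d, c, f]) (Perm.refl _) (Perm.refl _) (by lperm),
      e.t_perm (l' := [d, c, f]) (by lperm)]
  · intro a b c d f g
    rw [e.N_perm (C' := [f, d, c]) (Perm.refl _) (Perm.refl _) (by lperm),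
      e.t_perm (l' := [f, d, c]) (by lperm)]
  · intro a b c d f g h
    rw [e.N_z h, t, if_neg h, add_zero]

include e in
theorem cyc {a b c d f g : Fin 10} (h : [a, b, c, d, f, g] ~ L) :
    t F [a, b, c] + t F [a, b, d] + t F [a, b, f] + t F [a, b, g] = 0 := by
  have h1 := e.r221 h
  have h2 := e.r212 h
  rw [e.y23 (Perm.trans (by lperm) h)] at h1
  rw [e.z23 (Perm.trans (by lperm) h)] at h2
  have h3 : e.N [a, b] [c, d] [g, f] = e.N [a, b] [d, c] [f, g] :=
    e.N_perm (Perm.refl _) (by lperm) (by lperm)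
  have h4 := e.t_add h
  have h5 := e.t_add (a := a) (b := b) (c := f) (d := g) (f := c) (g := d)
    (Perm.trans (by lperm) h)
  have h6 : t F [g, a, b] = t F [a, b, g] := e.t_perm (by lperm)
  have h7 : t F [d, a, b] = t F [a, b, d] := e.t_perm (by lperm)
  grind

include e in
theorem rp {a b c d f g : Fin 10} (h : [a, b, c, d, f, g] ~ L) : F [a, b, c] ∨ F [d, f, g] := by
  have := e.t_add h
  by_contra h1
  rw [not_or] at h1
  simp [t, h1.1, h1.2] at this

theorem E_one {a b c d f g : Fin 10} (h : [a, b, c, d, f, g] ~ L) (hF : F [a, b, c]) :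
    e.E (cup2 (T [a, b, c]) (T [d, f])) = 1 := by
  rw [← e.N_cup2 h, e.x32 h, t, if_pos hF]

end Ev

end Crest.Agent.R50
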