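import Crest.Agent.R50.KyFan

/-!
Cochains on lists of triples of colours and the linear relations between the cell numbers.
-/

set_option autoImplicit false

noncomputable section

namespace Crest.Agent.R50

open List

/-- Permutations of explicit lists. -/
macro "lperm" : tactic => `(tactic| (
  refine List.perm_iff_count.mpr fun x => ?_
  simp only [List.count_cons, List.count_nil, List.cons_append, List.nil_append] <;> ring))

section Tsec

variable {α : Type*} [DecidableEq α]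

/-- The indicator of a simplex. -/
def T (s l : List α) : ZMod 2 := if l ~ s then 1 else 0

/-- The coboundary of a cochain. -/
def dl {β : Type*} (φ : List β → ZMod 2) (l : List β) : ZMod 2 := ((faces l).map φ).sum

lemma T_perm {s s' : List α} (h : s ~ s') : T s = T s' := by
  funext l
  have : l ~ s ↔ l ~ s' := ⟨fun h' => h'.trans h, fun h' => h'.trans h.symm⟩
  simp only [T, this]

lemma T_ne {s l : List α} (h : T s l ≠ 0) : l ~ s := by
  by_contra h'
  exact h (if_neg h')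

lemma faces_forall₂ {β : Type*} (l : List β) :
    List.Forall₂ (fun f u => l ~ u :: f) (faces l) l := by
  induction l with
  | nil => simp [faces]
  | cons a t ih =>
    rw [faces]
    refine List.Forall₂.cons (Perm.refl _) ?_
    rw [List.forall₂_map_left_iff]
    exact ih.imp fun f u h => (h.cons a).trans (Perm.swap _ _ _)

lemma dl_T (s l : List α) : dl (T s) l = (l.map fun u => if l ~ u :: s then (1 : ZMod 2) else 0).sum := by
  have := faces_forall₂ l
  unfold dl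
  congr 1
  rw [← List.forall₂_eq_eq_eq, List.forall₂_map_left_iff, List.forall₂_map_right_iff]
  refine this.imp fun f u h => ?_
  have : f ~ s ↔ l ~ u :: s :=
    ⟨fun h' => h.trans (h'.cons u), fun h' => (h.symm.trans h').cons_inv⟩
  simp only [T, this]

omit [DecidableEq α] in
lemma cons_perm_iff {a b : α} {s : List α} : a :: s ~ b :: s ↔ a = b := by
  rw [← Multiset.coe_eq_coe, ← Multiset.cons_coe, ← Multiset.cons_coe, Multiset.cons_inj_left]

lemma sum_ite_count (l : List α) (a : α) :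
    (l.map fun u => if a = u then (1 : ZMod 2) else 0).sum = (l.count a : ℕ) := by
  induction l with
  | nil => simp
  | cons b t ih =>
    rw [List.map_cons, List.sum_cons, ih, List.count_cons]
    by_cases h : a = b
    · simp [h, add_comm]
    · simp [h, Ne.symm h]

lemma dl_T_of_perm {s l : List α} {a : α} (h : l ~ a :: s) :
    dl (T s) l = ((s.count a + 1 : ℕ) : ZMod 2) := by
  rw [dl_T]
  have : ∀ u, l ~ u :: s ↔ a = u := fun u =>
    ⟨fun h' => cons_perm_iff.mp (h.symm.trans h'), fun h' => h' ▸ h⟩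
  simp only [this]
  rw [sum_ite_count, h.count_eq, List.count_cons_self]

lemma dl_T_of_not {s l : List α} (h : ∀ a, ¬ l ~ a :: s) : dl (T s) l = 0 := by
  rw [dl_T]
  simp [h]

lemma dl_T_ne {s l : List α} (hs : s.Nodup) (h : dl (T s) l ≠ 0) : ∃ a, a ∉ s ∧ l ~ a :: s := by
  by_cases h1 : ∃ a, l ~ a :: s
  · obtain ⟨a, ha⟩ := h1
    refine ⟨a, fun h2 => h ?_, ha⟩
    rw [dl_T_of_perm ha, List.count_eq_one_of_mem hs h2]
    rfl
  · exact absurd (dl_T_of_not (not_exists.mp h1)) h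

lemma dl_T_eq {s l : List α} {m : α} (hs : (m :: s).Nodup) (hl : ∀ u ∈ l, u ∈ m :: s) :
    dl (T s) l = T (m :: s) l := by
  rw [List.nodup_cons] at hs
  by_cases h : l ~ m :: s
  · rw [dl_T_of_perm h, List.count_eq_zero_of_not_mem hs.1, T, if_pos h]
    rfl
  · rw [T, if_neg h]
    by_contra h1
    obtain ⟨a, ha, h2⟩ := dl_T_ne hs.2 h1
    rcases List.mem_cons.mp (hl a (h2.mem_iff.mpr List.mem_cons_self)) with rfl | h3
    · exact h h2
    · exact ha h3

lemma key_T {A B C L xs ys zs : List α} {m : α} (hm : (m :: A).Nodup)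
    (hL : ∀ u ∈ L, u ∈ m :: A ∨ u ∈ B ∨ u ∈ C) (hx : ∀ u ∈ xs, u ∈ L)
    (hy : ∀ u ∈ xs, u ∉ ys) (hz : ∀ u ∈ xs, u ∉ zs) :
    dl (T A) xs * (T B ys * T C zs) = T (m :: A) xs * (T B ys * T C zs) := by
  by_cases hB : T B ys = 0
  · simp [hB]
  by_cases hC : T C zs = 0
  · simp [hC]
  rw [dl_T_eq hm]
  intro u hu
  rcases hL u (hx u hu) with h | h | h
  · exact h
  · exact absurd ((T_ne hB).mem_iff.mpr h) (hy u hu)
  · exact absurd ((T_ne hC).mem_iff.mpr h) (hz u hu)

lemma T_map {β : Type*} [DecidableEq β] {g : α → β} (hg : Function.Injective g) (s l : List α) :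
    T (s.map g) (l.map g) = T s l := by
  simp only [T, List.map_perm_map_iff hg]

end Tsec

/-- A triple of colours. -/
structure Lb where
  x : Fin 10
  y : Fin 10
  z : Fin 10
deriving DecidableEq

/-- An antisymmetric key. -/
def Lb.key (v : Lb) : ℤ :=
  if v.x.val < v.y.val then 100 * v.x.val + 10 * v.y.val + v.z.val + 1
  else -(100 * v.y.val + 10 * v.x.val + v.z.val + 1)

lemma Lb.key_inj : Function.Injective Lb.key := by
  rintro ⟨a, b, c⟩ ⟨a', b', c'⟩ h
  simp only [Lb.key] at h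
  have := a.2
  have := b.2
  have := c.2
  have := a'.2
  have := b'.2
  have := c'.2
  simp only [Lb.mk.injEq, Fin.ext_iff]
  split_ifs at h <;> omega

instance : LinearOrder Lb := LinearOrder.lift' Lb.key Lb.key_inj

lemma Lb.le_iff {u v : Lb} : u ≤ v ↔ u.key ≤ v.key := Iff.rfl

/-- Exchange of the first two colours. -/
def Lb.swap (v : Lb) : Lb := ⟨v.y, v.x, v.z⟩

lemma Lb.key_swap {v : Lb} (h : v.x ≠ v.y) : v.swap.key = -v.key := by
  have : v.x.val ≠ v.y.val := fun h' => h (Fin.ext h')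
  simp only [Lb.key, Lb.swap]
  split_ifs <;> omega

/-- Cup product of three cochains. -/
def cup (i j : ℕ) (α β γ : List (Fin 10) → ZMod 2) (l : List Lb) : ZMod 2 :=
  α ((l.take (i + 1)).map Lb.x) * (β (((l.drop i).take (j + 1)).map Lb.y) *
    γ ((l.drop (i + j)).map Lb.z))

lemma cup_leibniz (i j : ℕ) (hij : i + j ≤ 2) (α β γ : List (Fin 10) → ZMod 2) (l : List Lb)
    (hl : l.length = 4) :
    dl (cup i j α β γ) l =
      cup (i + 1) j (dl α) β γ l + cup i (j + 1) α (dl β) γ l + cup i j α β (dl γ) l := by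
  match l, hl with
  | [v0, v1, v2, v3], _ =>
    have hi : i ≤ 2 := by omega
    have hj : j ≤ 2 := by omega
    interval_cases i <;> interval_cases j <;> first
      | omega
      | (simp only [dl, cup, faces, List.map_cons, List.map_nil, List.sum_cons, List.sum_nil,
          List.take, List.drop, Nat.reduceAdd]
         grind)

/-- Cup product of two cochains. -/
def cup2 (α β : List (Fin 10) → ZMod 2) (l : List Lb) : ZMod 2 :=
  α ((l.take 3).map Lb.x) * β ((l.drop 2).map Lb.y)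

lemma cup2_leibniz (α β : List (Fin 10) → ZMod 2) (l : List Lb) (hl : l.length = 5) :
    dl (cup2 α β) l = dl α ((l.take 4).map Lb.x) * β ((l.drop 3).map Lb.y) +
      α ((l.take 3).map Lb.x) * dl β ((l.drop 2).map Lb.y) := by
  match l, hl with
  | [v0, v1, v2, v3, v4], _ =>
    simp only [dl, cup2, faces, List.map_cons, List.map_nil, List.sum_cons, List.sum_nil,
      List.take, List.drop]
    grind

/-- Comparison indicator. -/
def b0 (x y : Fin 6) : ZMod 2 := if x < y then 1 else 0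

/-- First interlacing indicator. -/
def b1 (x0 x1 y : Fin 6) : ZMod 2 := b0 x0 y + b0 x1 y

/-- Second interlacing indicator. -/
def b2 (x0 x1 y1 y2 : Fin 6) : ZMod 2 :=
  if (x0 < y1 ∧ x0 < y2) ∨ (x1 < y1 ∧ x1 < y2) then b1 x0 x1 y1 + b1 x0 x1 y2 else 0

/-- Third interlacing indicator. -/
def b3 (x0 x1 x2 y2 y3 : Fin 6) : ZMod 2 := b2 x1 x2 y2 y3 + b2 x0 x2 y2 y3 + b2 x0 x1 y2 y3

lemma b0_swap : ∀ x y : Fin 6, x ≠ y → b0 x y + b0 y x = 1 := by decide

lemma b1_swap : ∀ x0 x1 y0 y1 : Fin 6, x0 ≠ y0 → x0 ≠ y1 →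
    b0 x1 y1 + b0 x0 y0 = b1 x0 x1 y1 + b1 y1 y0 x0 := by decide +kernel

lemma b2_swap : ∀ x0 x1 y1 y2 : Fin 6, x0 ≠ y1 → x0 ≠ y2 → x1 ≠ y1 → x1 ≠ y2 →
    b1 x0 x1 y1 + b1 x0 x1 y2 = b2 x0 x1 y1 y2 + b2 y2 y1 x1 x0 := by decide +kernel

lemma b3_swap : ∀ x0 x1 y1 : Fin 6, x0 ≠ y1 → x1 ≠ y1 → ∀ y2, x0 ≠ y2 → x1 ≠ y2 →
    ∀ y3, x0 ≠ y3 → x1 ≠ y3 →
    b2 x0 x1 y2 y3 + b2 x0 x1 y1 y3 + b2 x0 x1 y1 y2 = b3 y3 y2 y1 x1 x0 := by decide +kernel

lemma b3_eq : ∀ x0 x1 x2 y2 : Fin 6, x0 ≠ y2 → x1 ≠ y2 → x2 ≠ y2 → ∀ y3, x0 ≠ y3 → x1 ≠ y3 →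
    x2 ≠ y3 → b3 x0 x1 x2 y2 y3 =
      T [0, 2, 4] [x0, x1, x2] * T [1, 3] [y2, y3] + T [0, 2, 5] [x0, x1, x2] * T [1, 3] [y2, y3]
      + T [0, 2, 5] [x0, x1, x2] * T [1, 4] [y2, y3]
      + T [0, 3, 5] [x0, x1, x2] * T [1, 4] [y2, y3]
      + T [0, 3, 5] [x0, x1, x2] * T [2, 4] [y2, y3]
      + T [1, 3, 5] [x0, x1, x2] * T [2, 4] [y2, y3] := by decide +kernel

/-- The ladder cochains on lists of triples. -/
def Bc (ρ : Fin 10 → Fin 6) : List Lb → ZMod 2
  | [] => 1
  | [v0] => b0 (ρ v0.x) (ρ v0.y)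
  | [v0, v1] => b1 (ρ v0.x) (ρ v1.x) (ρ v1.y)
  | [v0, v1, v2] => b2 (ρ v0.x) (ρ v1.x) (ρ v1.y) (ρ v2.y)
  | [v0, v1, v2, v3] => b3 (ρ v0.x) (ρ v1.x) (ρ v2.x) (ρ v2.y) (ρ v3.y)
  | _ => 0

lemma Bc_faces (ρ : Fin 10 → Fin 6) (l : List Lb) (h0 : l ≠ []) (h4 : l.length ≤ 4)
    (h : ∀ u ∈ l, ∀ v ∈ l, ρ u.x ≠ ρ v.y) :
    ((faces l).map (Bc ρ)).sum = Bc ρ l + Bc ρ (l.map Lb.swap).reverse := by
  match l, h0, h4, h with
  | [v0], _, _, h =>
    have := b0_swap _ _ (h v0 (by simp) v0 (by simp))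
    simp [faces, Bc, Lb.swap, this]
  | [v0, v1], _, _, h =>
    have := b1_swap (ρ v0.x) (ρ v1.x) (ρ v0.y) (ρ v1.y) (h v0 (by simp) v0 (by simp))
      (h v0 (by simp) v1 (by simp))
    simp [faces, Bc, Lb.swap, this]
  | [v0, v1, v2], _, _, h =>
    have := b2_swap (ρ v0.x) (ρ v1.x) (ρ v1.y) (ρ v2.y) (h v0 (by simp) v1 (by simp))
      (h v0 (by simp) v2 (by simp)) (h v1 (by simp) v1 (by simp)) (h v1 (by simp) v2 (by simp))
    simp only [faces, Bc, Lb.swap, List.map_cons, List.map_nil, List.sum_cons, List.sum_nil,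
      List.reverse_cons, List.reverse_nil, List.nil_append, List.cons_append]
    rw [← this]
    simp only [b1]
    grind
  | [v0, v1, v2, v3], _, _, h =>
    have := b3_swap (ρ v0.x) (ρ v1.x) (ρ v1.y) (h v0 (by simp) v1 (by simp))
      (h v1 (by simp) v1 (by simp)) (ρ v2.y) (h v0 (by simp) v2 (by simp))
      (h v1 (by simp) v2 (by simp)) (ρ v3.y) (h v0 (by simp) v3 (by simp))
      (h v1 (by simp) v3 (by simp))
    simp only [faces, Bc, Lb.swap, List.map_cons, List.map_nil, List.sum_cons, List.sum_nil,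
      List.reverse_cons, List.reverse_nil, List.nil_append, List.cons_append]
    rw [← this]
    simp only [b3]
    grind
  | _ :: _ :: _ :: _ :: _ :: _, _, h, _ => simp at h; omega

end Crest.Agent.R50
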