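import Mathlib

/-!
Mod-2 chains on a type of points, modelled as polynomials: a monomial is an unordered simplex
(a multiset of points), the boundary is the derivation sending every variable to one.
-/

set_option autoImplicit false

noncomputable section

namespace Crest.Agent.R50

open MvPolynomial

/-- Chains with coefficients mod two. -/
abbrev Ch (α : Type*) := MvPolynomial α (ZMod 2)

variable {α β : Type*}

/-- The simplex of a multiset. -/
def prM (m : Multiset α) : Ch α := (m.map X).prod

/-- The simplex of a list. -/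
def pr (l : List α) : Ch α := (l.map X).prod

lemma prM_coe (l : List α) : prM (l : Multiset α) = pr l := by
  simp [prM, pr]

@[simp] lemma pr_nil : pr ([] : List α) = 1 := by simp [pr]

lemma pr_cons (a : α) (l : List α) : pr (a :: l) = X a * pr l := by simp [pr]

lemma pr_perm {l l' : List α} (h : l.Perm l') : pr l = pr l' := by
  rw [← prM_coe, ← prM_coe, Multiset.coe_eq_coe.mpr h]

lemma add_self (p : Ch α) : p + p = 0 := CharTwo.add_self_eq_zero p

lemma prM_toMultiset (s : α →₀ ℕ) : prM (Finsupp.toMultiset s) = monomial s 1 := by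
  classical
  induction s using Finsupp.induction_linear with
  | zero => simp [prM]
  | add f g hf hg =>
    rw [map_add]
    have : prM (Finsupp.toMultiset f + Finsupp.toMultiset g) =
        prM (Finsupp.toMultiset f) * prM (Finsupp.toMultiset g) := by simp [prM]
    rw [this, hf, hg, monomial_mul, one_mul]
  | single a n =>
    rw [Finsupp.toMultiset_single]
    simp [prM, X_pow_eq_monomial, Multiset.map_nsmul, Multiset.prod_nsmul]

/-- The linear map with prescribed values on simplices. -/
def lin {M : Type*} [AddCommGroup M] [Module (ZMod 2) M] (φ : Multiset α → M) :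
    Ch α →ₗ[ZMod 2] M :=
  (basisMonomials α (ZMod 2)).constr (ZMod 2) fun s => φ (Finsupp.toMultiset s)

lemma lin_prM {M : Type*} [AddCommGroup M] [Module (ZMod 2) M] (φ : Multiset α → M)
    (m : Multiset α) : lin φ (prM m) = φ m := by
  classical
  have h := prM_toMultiset (Multiset.toFinsupp m)
  rw [Multiset.toFinsupp_toMultiset] at h
  have h2 := (basisMonomials α (ZMod 2)).constr_basis (ZMod 2)
    (fun s => φ (Finsupp.toMultiset s)) (Multiset.toFinsupp m)
  rw [coe_basisMonomials] at h2
  rw [h, lin]
  simpa using h2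

lemma lin_pr {M : Type*} [AddCommGroup M] [Module (ZMod 2) M] (φ : Multiset α → M)
    (l : List α) : lin φ (pr l) = φ l := by
  rw [← prM_coe, lin_prM]

lemma lin_ext {M : Type*} [AddCommGroup M] [Module (ZMod 2) M] {f g : Ch α →ₗ[ZMod 2] M}
    (h : ∀ l : List α, f (pr l) = g (pr l)) : f = g := by
  apply (basisMonomials α (ZMod 2)).ext
  intro s
  rw [coe_basisMonomials]
  have := h (Finsupp.toMultiset s).toList
  rw [← prM_coe, Multiset.coe_toList, prM_toMultiset] at this
  exact this

/-- The boundary. -/
def D : Ch α →ₗ[ZMod 2] Ch α := (mkDerivation (ZMod 2) fun _ : α => (1 : Ch α)).toLinearMap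

lemma D_one : D (1 : Ch α) = 0 := by
  simp [D]

lemma D_X_mul (a : α) (p : Ch α) : D (X a * p) = p + X a * D p := by
  simp [D, add_comm]

/-- The faces of a list. -/
def faces : List α → List (List α)
  | [] => []
  | a :: t => t :: (faces t).map (a :: ·)

lemma D_pr (l : List α) : D (pr l) = ((faces l).map pr).sum := by
  induction l with
  | nil => simp [faces, D_one]
  | cons a t ih =>
    rw [pr_cons, D_X_mul, ih]
    simp [faces, ← List.sum_map_mul_left, Function.comp_def, pr_cons]

lemma faces_sublist {l f : List α} (h : f ∈ faces l) : f.Sublist l ∧ f.length + 1 = l.length := by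
  induction l generalizing f with
  | nil => simp [faces] at h
  | cons a t ih =>
    simp only [faces, List.mem_cons, List.mem_map] at h
    rcases h with rfl | ⟨g, hg, rfl⟩
    · simp
    · have := ih hg
      exact ⟨this.1.cons_cons a, by simp [this.2]⟩

lemma D_D (p : Ch α) : D (D p) = 0 := by
  have : (D ∘ₗ D : Ch α →ₗ[ZMod 2] Ch α) = 0 := by
    apply lin_ext
    intro l
    induction l with
    | nil => simp [D_one]
    | cons a t ih =>
      simp only [LinearMap.comp_apply, LinearMap.zero_apply] at ih ⊢
      rw [pr_cons, D_X_mul, map_add, D_X_mul, ih, mul_zero, add_zero, add_self]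
  exact LinearMap.congr_fun this p

/-- Push-forward of chains. -/
def ren (f : α → β) : Ch α →ₗ[ZMod 2] Ch β := (rename f : Ch α →ₐ[ZMod 2] Ch β).toLinearMap

lemma ren_X_mul (f : α → β) (a : α) (p : Ch α) : ren f (X a * p) = X (f a) * ren f p := by
  simp [ren]

lemma ren_one (f : α → β) : ren f (1 : Ch α) = 1 := by simp [ren]

lemma ren_pr (f : α → β) (l : List α) : ren f (pr l) = pr (l.map f) := by
  induction l with
  | nil => simp [ren_one]
  | cons a t ih => rw [pr_cons, ren_X_mul, ih, List.map_cons, pr_cons]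

lemma ren_ren {γ : Type*} (f : α → β) (g : β → γ) (p : Ch α) :
    ren g (ren f p) = ren (g ∘ f) p := by
  simp [ren]

lemma D_ren (f : α → β) (p : Ch α) : D (ren f p) = ren f (D p) := by
  have : (D ∘ₗ ren f : Ch α →ₗ[ZMod 2] Ch β) = ren f ∘ₗ D := by
    apply lin_ext
    intro l
    induction l with
    | nil => simp [D_one, ren_one]
    | cons a t ih =>
      simp only [LinearMap.comp_apply] at ih ⊢
      rw [pr_cons, ren_X_mul, D_X_mul, D_X_mul, ih, map_add, ren_X_mul]
  exact LinearMap.congr_fun this p

/-- The chains spanned by simplices with a given property. -/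
def Sp (Q : List α → Prop) : Submodule (ZMod 2) (Ch α) :=
  Submodule.span (ZMod 2) (pr '' {l | Q l})

lemma pr_mem_Sp {Q : List α → Prop} {l : List α} (h : Q l) : pr l ∈ Sp Q :=
  Submodule.subset_span ⟨l, h, rfl⟩

lemma Sp_mono {Q Q' : List α → Prop} (h : ∀ l, Q l → Q' l) : Sp Q ≤ Sp Q' :=
  Submodule.span_mono (Set.image_mono h)

lemma map_mem_of_Sp {M : Type*} [AddCommGroup M] [Module (ZMod 2) M] {Q : List α → Prop}
    (f : Ch α →ₗ[ZMod 2] M) (N : Submodule (ZMod 2) M) (h : ∀ l, Q l → f (pr l) ∈ N)
    {p : Ch α} (hp : p ∈ Sp Q) : f p ∈ N := by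
  have : Sp Q ≤ N.comap f := by
    apply Submodule.span_le.mpr
    rintro _ ⟨l, hl, rfl⟩
    exact h l hl
  exact this hp

lemma eq_of_Sp {M : Type*} [AddCommGroup M] [Module (ZMod 2) M] {Q : List α → Prop}
    (f g : Ch α →ₗ[ZMod 2] M) (h : ∀ l, Q l → f (pr l) = g (pr l))
    {p : Ch α} (hp : p ∈ Sp Q) : f p = g p := by
  have := map_mem_of_Sp (f - g) ⊥ (fun l hl => by simp [h l hl]) hp
  simpa [sub_eq_zero] using this

/-- Simplices may be listed in the order of their labels. -/
lemma Sp_sorted {Λ : Type*} [LinearOrder Λ] (lab : α → Λ) {Q : List α → Prop}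
    (hQ : ∀ l l', l.Perm l' → Q l → Q l') :
    Sp Q ≤ Sp (fun l => Q l ∧ (l.map lab).Pairwise (· ≤ ·)) := by
  apply Submodule.span_le.mpr
  rintro _ ⟨l, hl, rfl⟩
  let r : α → α → Prop := fun a b => lab a ≤ lab b
  have : Std.Total r := ⟨fun a b => le_total _ _⟩
  have : IsTrans α r := ⟨fun a b c => le_trans⟩
  have hp : (l.insertionSort r).Perm l := List.perm_insertionSort r l
  rw [← pr_perm hp]
  refine pr_mem_Sp ⟨hQ _ _ hp.symm hl, ?_⟩
  rw [List.pairwise_map]
  exact List.pairwise_insertionSort r l

/-- Evaluation of a cochain on the sorted list of labels. -/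
def evS {Λ : Type*} [LinearOrder Λ] (φ : List Λ → ZMod 2) : Ch Λ →ₗ[ZMod 2] ZMod 2 :=
  lin fun m => φ (m.sort (· ≤ ·))

lemma sort_coe_of_sorted {Λ : Type*} [LinearOrder Λ] {l : List Λ} (h : l.Pairwise (· ≤ ·)) :
    (l : Multiset Λ).sort (· ≤ ·) = l := by
  apply List.Perm.eq_of_pairwise' (r := (· ≤ ·)) (Multiset.pairwise_sort _ _) h
  rw [← Multiset.coe_eq_coe, Multiset.sort_eq]

lemma evS_pr {Λ : Type*} [LinearOrder Λ] (φ : List Λ → ZMod 2) {l : List Λ}
    (h : l.Pairwise (· ≤ ·)) : evS φ (pr l) = φ l := by
  rw [evS, lin_pr, sort_coe_of_sorted h]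

lemma evS_D_pr {Λ : Type*} [LinearOrder Λ] (φ : List Λ → ZMod 2) {l : List Λ}
    (h : l.Pairwise (· ≤ ·)) : evS φ (D (pr l)) = ((faces l).map φ).sum := by
  rw [D_pr, map_list_sum, List.map_map]
  congr 1
  apply List.map_congr_left
  intro f hf
  exact evS_pr φ (h.sublist (faces_sublist hf).1)

lemma evS_add {Λ : Type*} [LinearOrder Λ] (φ ψ : List Λ → ZMod 2) (p : Ch Λ) :
    evS (fun l => φ l + ψ l) p = evS φ p + evS ψ p := by
  have : evS (fun l => φ l + ψ l) = evS φ + evS ψ := by
    apply lin_ext
    intro l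
    simp [evS, lin_pr]
  rw [this, LinearMap.add_apply]

/-- The chain of a list of simplices. -/
def chain (L : List (List α)) : Ch α := (L.map pr).sum

lemma chain_append (L L' : List (List α)) : chain (L ++ L') = chain L + chain L' := by
  simp [chain]

lemma chain_mem_Sp {Q : List α → Prop} {L : List (List α)} (h : ∀ l ∈ L, Q l) :
    chain L ∈ Sp Q := by
  apply list_sum_mem
  intro x hx
  obtain ⟨l, hl, rfl⟩ := List.mem_map.mp hx
  exact pr_mem_Sp (h l hl)

lemma ren_chain (f : α → β) (L : List (List α)) :
    ren f (chain L) = chain (L.map (List.map f)) := by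
  simp [chain, map_list_sum, List.map_map, Function.comp_def, ren_pr]

lemma D_chain (L : List (List α)) : D (chain L) = chain (L.flatMap faces) := by
  induction L with
  | nil => simp [chain]
  | cons l L ih =>
    have : chain (l :: L) = pr l + chain L := by simp [chain]
    rw [this, map_add, ih, List.flatMap_cons, chain_append, D_pr]
    rfl

lemma chain_eq_zero_of_even {n : ℕ} (L : List (List (Fin n)))
    (h : ∀ l ∈ L.map (List.insertionSort (· ≤ ·)),
      (L.map (List.insertionSort (· ≤ ·))).count l % 2 = 0) : chain L = 0 := by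
  have h1 : chain L = chain (L.map (List.insertionSort (· ≤ ·))) := by
    simp only [chain, List.map_map]
    congr 1
    apply List.map_congr_left
    intro l _
    exact (pr_perm (List.perm_insertionSort _ l)).symm
  rw [h1]
  generalize L.map (List.insertionSort (· ≤ ·)) = L' at h
  rw [chain, Finset.sum_list_map_count]
  apply Finset.sum_eq_zero
  intro l hl
  obtain ⟨k, hk⟩ := (Nat.even_iff.mpr (h l (List.mem_toFinset.mp hl)))
  have hk' : @List.count _ instBEqOfDecidableEq l L' = k + k := by convert hk
  rw [hk', add_smul, add_self]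

end Crest.Agent.R50
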