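import Mathlib

/-!
A small resolution checker for clauses over subsets of a ten-element set.
-/

set_option autoImplicit false

noncomputable section

namespace Crest.Agent.R50

/-- A clause, given by the bit masks of its positive and negative literals, holds. -/
def Holds (val : ℕ → Prop) (p q : ℕ) : Prop :=
  ∃ n, (p.testBit n = true ∧ val n) ∨ (q.testBit n = true ∧ ¬ val n)

lemma not_holds_zero (val : ℕ → Prop) : ¬ Holds val 0 0 := by
  rintro ⟨n, h⟩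
  simp at h

lemma holds_one (val : ℕ → Prop) : Holds val 1 1 := ⟨0, by simpa using em _⟩

lemma testBit_xor_shift {p v n : ℕ} (h : n ≠ v) (hp : p.testBit n = true) :
    (Nat.xor p (Nat.shiftLeft 1 v)).testBit n = true := by
  have : Nat.xor p (Nat.shiftLeft 1 v) = p ^^^ 2 ^ v := by
    rw [← Nat.one_shiftLeft]; rfl
  rw [this, Nat.testBit_xor, hp, Nat.testBit_two_pow_of_ne h.symm]
  rfl

lemma testBit_lor_left {p q n : ℕ} (hp : p.testBit n = true) : (Nat.lor p q).testBit n = true := by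
  have : Nat.lor p q = p ||| q := rfl
  rw [this, Nat.testBit_or, hp, Bool.true_or]

lemma testBit_lor_right {p q n : ℕ} (hq : q.testBit n = true) :
    (Nat.lor p q).testBit n = true := by
  have : Nat.lor p q = p ||| q := rfl
  rw [this, Nat.testBit_or, hq, Bool.or_true]

lemma holds_res {val : ℕ → Prop} {p q p' q' : ℕ} (h : Holds val p q) (h' : Holds val p' q')
    (v : ℕ) : Holds val (Nat.lor (Nat.xor p (Nat.shiftLeft 1 v)) p')
      (Nat.lor q (Nat.xor q' (Nat.shiftLeft 1 v))) := by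
  by_cases hv : val v
  · obtain ⟨n, ⟨h1, h2⟩ | ⟨h1, h2⟩⟩ := h'
    · exact ⟨n, Or.inl ⟨testBit_lor_right h1, h2⟩⟩
    · exact ⟨n, Or.inr ⟨testBit_lor_right (testBit_xor_shift (fun e => h2 (e ▸ hv)) h1), h2⟩⟩
  · obtain ⟨n, ⟨h1, h2⟩ | ⟨h1, h2⟩⟩ := h
    · exact ⟨n, Or.inl ⟨testBit_lor_left (testBit_xor_shift (fun e => hv (e ▸ h2)) h1), h2⟩⟩
    · exact ⟨n, Or.inr ⟨testBit_lor_left h1, h2⟩⟩

/-- Evaluate a number before passing it on. -/
def force (n : ℕ) (k : ℕ → Bool) : Bool := Nat.rec (k 0) (fun m _ => k (Nat.succ m)) n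

lemma force_eq (n : ℕ) (k : ℕ → Bool) : force n k = k n := by
  cases n <;> rfl

/-- A conditional. -/
def bif' (b x y : Bool) : Bool := Bool.rec y x b

lemma bif'_elim {b x y : Bool} (h : bif' b x y = true) :
    (b = true ∧ x = true) ∨ (b = false ∧ y = true) := by
  cases b
  · exact Or.inr ⟨rfl, h⟩
  · exact Or.inl ⟨rfl, h⟩

/-- A binary tree of clauses. -/
inductive Tr where
  | nil : Tr
  | node (p q : ℕ) (l r : Tr) : Tr

/-- All clauses of the tree hold. -/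
def Tr.All (val : ℕ → Prop) : Tr → Prop
  | nil => True
  | node p q l r => Holds val p q ∧ l.All val ∧ r.All val

/-- Lookup. -/
def Tr.get (t : Tr) : ℕ → (ℕ → ℕ → Bool) → Bool :=
  Tr.rec (fun _ k => k 1 1) (fun p q _ _ gl gr i k => bif' (Nat.beq i 1) (k p q)
    (bif' (Nat.beq (Nat.land i 1) 0) (gl (Nat.shiftRight i 1) k) (gr (Nat.shiftRight i 1) k))) t

lemma Tr.get_sound {val : ℕ → Prop} {t : Tr} (h : t.All val) : ∀ i k, t.get i k = true →
    ∃ p q, Holds val p q ∧ k p q = true := by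
  induction t with
  | nil => exact fun i k hk => ⟨1, 1, holds_one val, hk⟩
  | node p q l r ihl ihr =>
    intro i k hk
    rcases bif'_elim hk with ⟨-, h1⟩ | ⟨-, h1⟩
    · exact ⟨p, q, h.1, h1⟩
    · rcases bif'_elim h1 with ⟨-, h2⟩ | ⟨-, h2⟩
      · exact ihl h.2.1 _ _ h2
      · exact ihr h.2.2 _ _ h2

/-- Insertion. -/
def Tr.ins (t : Tr) (p q : ℕ) : ℕ → (Tr → Bool) → Bool :=
  Tr.rec (fun _ k => k (Tr.node p q Tr.nil Tr.nil)) (fun p' q' l r gl gr i k =>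
    bif' (Nat.beq (Nat.land i 1) 0) (gl (Nat.shiftRight i 1) fun l' => k (Tr.node p' q' l' r))
      (gr (Nat.shiftRight i 1) fun r' => k (Tr.node p' q' l r'))) t

lemma Tr.ins_sound {val : ℕ → Prop} {p q : ℕ} (hpq : Holds val p q) {t : Tr} (h : t.All val) :
    ∀ i k, t.ins p q i k = true → ∃ t' : Tr, t'.All val ∧ k t' = true := by
  induction t with
  | nil => exact fun i k hk => ⟨.node p q .nil .nil, ⟨hpq, trivial, trivial⟩, hk⟩
  | node p' q' l r ihl ihr =>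
    intro i k hk
    rcases bif'_elim hk with ⟨-, h2⟩ | ⟨-, h2⟩
    · obtain ⟨t', h3, h4⟩ := ihl h.2.1 _ _ h2
      exact ⟨.node p' q' t' r, ⟨h.1, h3, h.2.2⟩, h4⟩
    · obtain ⟨t', h3, h4⟩ := ihr h.2.2 _ _ h2
      exact ⟨.node p' q' l t', ⟨h.1, h.2.1, h3⟩, h4⟩

/-- One resolution step on a chosen variable. -/
def res1 (p q p' q' v : ℕ) (k : ℕ → ℕ → Bool) : Bool :=
  force (Nat.lor (Nat.xor p (Nat.shiftLeft 1 v)) p') fun a =>
    force (Nat.lor q (Nat.xor q' (Nat.shiftLeft 1 v))) fun b => k a b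

/-- One resolution step. -/
def res (p q p' q' v : ℕ) (k : ℕ → ℕ → Bool) : Bool :=
  bif' (Nat.ble v 1023) (res1 p' q' p q v k) (res1 p q p' q' (Nat.sub v 1024) k)

lemma res_sound {val : ℕ → Prop} {p q p' q' : ℕ} (h : Holds val p q) (h' : Holds val p' q')
    {v : ℕ} {k : ℕ → ℕ → Bool} (hk : res p q p' q' v k = true) :
    ∃ a b, Holds val a b ∧ k a b = true := by
  rcases bif'_elim hk with ⟨-, h2⟩ | ⟨-, h2⟩
  · rw [res1, force_eq, force_eq] at h2
    exact ⟨_, _, holds_res h' h _, h2⟩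
  · rw [res1, force_eq, force_eq] at h2
    exact ⟨_, _, holds_res h h' _, h2⟩

/-- A chain of resolution steps. -/
def chn (t : Tr) (k : ℕ → ℕ → Bool) (fuel : ℕ) : ℕ → ℕ → ℕ → Bool :=
  Nat.rec (fun _ p q => k p q) (fun _ g x p q => bif' (Nat.beq x 0) (k p q)
    (force (Nat.land x 8191) fun i => force (Nat.shiftRight x 24) fun y =>
      t.get i fun p' q' => res p q p' q' (Nat.land (Nat.shiftRight x 13) 2047)
        fun a b => g y a b)) fuel

lemma chn_sound {val : ℕ → Prop} {t : Tr} (h : t.All val) {k : ℕ → ℕ → Bool} (fuel : ℕ) :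
    ∀ x p q, Holds val p q → chn t k fuel x p q = true → ∃ a b, Holds val a b ∧ k a b = true := by
  induction fuel with
  | zero => exact fun x p q hpq hk => ⟨p, q, hpq, hk⟩
  | succ n ih =>
    intro x p q hpq hk
    rcases bif'_elim hk with ⟨-, h2⟩ | ⟨-, h2⟩
    · exact ⟨p, q, hpq, h2⟩
    · rw [force_eq, force_eq] at h2
      obtain ⟨p', q', h3, h4⟩ := Tr.get_sound h _ _ h2
      obtain ⟨a, b, h5, h6⟩ := res_sound hpq h3 h4
      exact ih _ _ _ h5 h6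

/-- The mask of a list of variables. -/
def ors (l : List ℕ) : ℕ := List.rec 0 (fun v _ acc => Nat.lor (Nat.shiftLeft 1 v) acc) l

lemma testBit_ors (l : List ℕ) (n : ℕ) : (ors l).testBit n = true ↔ n ∈ l := by
  induction l with
  | nil => simp [ors]
  | cons a t ih =>
    have : ors (a :: t) = 2 ^ a ||| ors t := by
      rw [← Nat.one_shiftLeft]; rfl
    rw [this, Nat.testBit_or, Bool.or_eq_true, ih, Nat.testBit_two_pow, List.mem_cons]
    simp [eq_comm]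

lemma holds_ors {val : ℕ → Prop} {P N : List ℕ} (h : (∀ w ∈ N, val w) → ∃ v ∈ P, val v) :
    Holds val (ors P) (ors N) := by
  by_cases h1 : ∀ w ∈ N, val w
  · obtain ⟨v, hv, hv'⟩ := h h1
    exact ⟨v, Or.inl ⟨(testBit_ors _ _).mpr hv, hv'⟩⟩
  · push Not at h1
    obtain ⟨v, hv, hv'⟩ := h1
    exact ⟨v, Or.inr ⟨(testBit_ors _ _).mpr hv, hv'⟩⟩

/-- Ten colours that exhaust all colours. -/
def Cov (a0 a1 a2 a3 a4 a5 a6 a7 a8 a9 : Fin 10) : Prop :=
  ∀ k, k ∈ [a0, a1, a2, a3, a4, a5, a6, a7, a8, a9]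

/-- The combinatorial properties of the complex of faces. -/
structure Hyp (F : List (Fin 10) → Prop) : Prop where
  mono : ∀ l l', F l → (∀ i ∈ l', i ∈ l) → F l'
  n2 : ∀ a0 a1 a2 a3 a4 a5 a6 a7 a8 a9, Cov a0 a1 a2 a3 a4 a5 a6 a7 a8 a9 → F [a6, a7, a8, a9] →
    ¬ F [a0, a1, a2, a3]
  n1 : ∀ a0 a1 a2 a3 a4 a5 a6 a7 a8 a9, Cov a0 a1 a2 a3 a4 a5 a6 a7 a8 a9 → F [a6, a7, a8, a9] →
    F [a0, a1, a2] → ¬ F [a3, a4, a5]
  rp : ∀ a0 a1 a2 a3 a4 a5 a6 a7 a8 a9, Cov a0 a1 a2 a3 a4 a5 a6 a7 a8 a9 → F [a6, a7, a8, a9] →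
    F [a0, a1, a2] ∨ F [a3, a4, a5]
  ii : ∀ a0 a1 a2 a3 a4 a5 a6 a7 a8 a9, Cov a0 a1 a2 a3 a4 a5 a6 a7 a8 a9 → F [a6, a7, a8, a9] →
    F [a0, a1, a2] →
      F [a6, a0, a1, a2] ∨ F [a7, a0, a1, a2] ∨ F [a8, a0, a1, a2] ∨ F [a9, a0, a1, a2]
  cycA : ∀ a0 a1 a2 a3 a4 a5 a6 a7 a8 a9, Cov a0 a1 a2 a3 a4 a5 a6 a7 a8 a9 →
    F [a6, a7, a8, a9] → F [a0, a1, a2] → F [a0, a1, a3] → F [a0, a1, a4] → F [a0, a1, a5]
  cycB : ∀ a0 a1 a2 a3 a4 a5 a6 a7 a8 a9, Cov a0 a1 a2 a3 a4 a5 a6 a7 a8 a9 →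
    F [a6, a7, a8, a9] → F [a0, a1, a5] → F [a0, a1, a2] ∨ F [a0, a1, a3] ∨ F [a0, a1, a4]

/-- The valuation attached to a complex. -/
def valF (F : List (Fin 10) → Prop) (n : ℕ) : Prop :=
  F ((List.finRange 10).filter fun i => n.testBit i.val)

lemma Hyp.val_iff {F : List (Fin 10) → Prop} (h : Hyp F) (l : List (Fin 10)) :
    valF F (ors (l.map Fin.val)) ↔ F l := by
  have : ∀ i : Fin 10, i ∈ ((List.finRange 10).filter fun i =>
      (ors (l.map Fin.val)).testBit i.val) ↔ i ∈ l := by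
    intro i
    rw [List.mem_filter, testBit_ors, List.mem_map_of_injective Fin.val_injective]
    simp
  exact ⟨fun h' => h.mono _ _ h' fun i hi => (this i).mpr hi,
    fun h' => h.mono _ _ h' fun i hi => (this i).mp hi⟩

/-- The clause of a given type on ten digits. -/
def orig10 (ty a0 a1 a2 a3 a4 a5 a6 a7 a8 a9 : ℕ) (k : ℕ → ℕ → Bool) : Bool :=
  bif' (Nat.beq (ors [a0, a1, a2, a3, a4, a5, a6, a7, a8, a9]) 1023)
    (bif' (Nat.beq ty 0) (k (ors [ors [a0, a1, a2]]) (ors [ors [a0, a1, a2, a3]]))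
    (bif' (Nat.beq ty 1) (k (ors []) (ors [ors [a6, a7, a8, a9], ors [a0, a1, a2, a3]]))
    (bif' (Nat.beq ty 2)
      (k (ors []) (ors [ors [a6, a7, a8, a9], ors [a0, a1, a2], ors [a3, a4, a5]]))
    (bif' (Nat.beq ty 3)
      (k (ors [ors [a0, a1, a2], ors [a3, a4, a5]]) (ors [ors [a6, a7, a8, a9]]))
    (bif' (Nat.beq ty 4)
      (k (ors [ors [a6, a0, a1, a2], ors [a7, a0, a1, a2], ors [a8, a0, a1, a2],
        ors [a9, a0, a1, a2]]) (ors [ors [a6, a7, a8, a9], ors [a0, a1, a2]]))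
    (bif' (Nat.beq ty 5)
      (k (ors [ors [a0, a1, a5]])
        (ors [ors [a6, a7, a8, a9], ors [a0, a1, a2], ors [a0, a1, a3], ors [a0, a1, a4]]))
      (k (ors [ors [a0, a1, a2], ors [a0, a1, a3], ors [a0, a1, a4]])
        (ors [ors [a6, a7, a8, a9], ors [a0, a1, a5]]))))))))
    false

lemma orig10_sound {F : List (Fin 10) → Prop} (h : Hyp F) (ty : ℕ)
    (a0 a1 a2 a3 a4 a5 a6 a7 a8 a9 : Fin 10) {k : ℕ → ℕ → Bool}
    (hk : orig10 ty a0 a1 a2 a3 a4 a5 a6 a7 a8 a9 k = true) :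
    ∃ p q, Holds (valF F) p q ∧ k p q = true := by
  have v3 : ∀ a b c : Fin 10, valF F (ors [a.val, b.val, c.val]) ↔ F [a, b, c] :=
    fun a b c => h.val_iff [a, b, c]
  have v4 : ∀ a b c d : Fin 10, valF F (ors [a.val, b.val, c.val, d.val]) ↔ F [a, b, c, d] :=
    fun a b c d => h.val_iff [a, b, c, d]
  rcases bif'_elim hk with ⟨hc, hk⟩ | ⟨-, hk⟩
  swap
  · exact absurd hk (by simp)
  have cov : Cov a0 a1 a2 a3 a4 a5 a6 a7 a8 a9 := by
    intro i
    have h1 := Nat.eq_of_beq_eq_true hc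
    have h2 : (1023 : ℕ).testBit i.val = true := by revert i; decide
    rw [← h1, testBit_ors] at h2
    exact (List.mem_map_of_injective Fin.val_injective).mp h2
  rcases bif'_elim hk with ⟨-, hk⟩ | ⟨-, hk⟩
  · refine ⟨_, _, holds_ors ?_, hk⟩
    simp only [List.forall_mem_cons, List.exists_mem_cons_iff, v3, v4]
    exact fun h1 => Or.inl (h.mono _ _ h1.1 (by simp))
  rcases bif'_elim hk with ⟨-, hk⟩ | ⟨-, hk⟩
  · refine ⟨_, _, holds_ors ?_, hk⟩
    simp only [List.forall_mem_cons, v4]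
    exact fun h1 => absurd h1.2.1 (h.n2 _ _ _ _ _ _ _ _ _ _ cov h1.1)
  rcases bif'_elim hk with ⟨-, hk⟩ | ⟨-, hk⟩
  · refine ⟨_, _, holds_ors ?_, hk⟩
    simp only [List.forall_mem_cons, v3, v4]
    exact fun h1 => absurd h1.2.2.1 (h.n1 _ _ _ _ _ _ _ _ _ _ cov h1.1 h1.2.1)
  rcases bif'_elim hk with ⟨-, hk⟩ | ⟨-, hk⟩
  · refine ⟨_, _, holds_ors ?_, hk⟩
    simp only [List.forall_mem_cons, List.exists_mem_cons_iff, v3, v4]
    exact fun h1 => (h.rp _ _ _ _ _ _ _ _ _ _ cov h1.1).imp_right Or.inl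
  rcases bif'_elim hk with ⟨-, hk⟩ | ⟨-, hk⟩
  · refine ⟨_, _, holds_ors ?_, hk⟩
    simp only [List.forall_mem_cons, List.exists_mem_cons_iff, v3, v4]
    exact fun h1 => (h.ii _ _ _ _ _ _ _ _ _ _ cov h1.1 h1.2.1).imp_right
      (Or.imp_right (Or.imp_right Or.inl))
  rcases bif'_elim hk with ⟨-, hk⟩ | ⟨-, hk⟩
  · refine ⟨_, _, holds_ors ?_, hk⟩
    simp only [List.forall_mem_cons, List.exists_mem_cons_iff, v3, v4]
    exact fun h1 => Or.inl (h.cycA _ _ _ _ _ _ _ _ _ _ cov h1.1 h1.2.1 h1.2.2.1 h1.2.2.2.1)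
  · refine ⟨_, _, holds_ors ?_, hk⟩
    simp only [List.forall_mem_cons, List.exists_mem_cons_iff, v3, v4]
    exact fun h1 => (h.cycB _ _ _ _ _ _ _ _ _ _ cov h1.1 h1.2.1).imp_right (Or.imp_right Or.inl)

/-- A decimal digit. -/
def dg (c m : ℕ) : ℕ := Nat.mod (Nat.div c m) 10

/-- The clause with a given code. -/
def orig (c : ℕ) (k : ℕ → ℕ → Bool) : Bool :=
  force (dg c 1) fun a0 => force (dg c 10) fun a1 => force (dg c 100) fun a2 =>
  force (dg c 1000) fun a3 => force (dg c 10000) fun a4 => force (dg c 100000) fun a5 =>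
  force (dg c 1000000) fun a6 => force (dg c 10000000) fun a7 =>
  force (dg c 100000000) fun a8 => force (dg c 1000000000) fun a9 =>
  orig10 (dg c 10000000000) a0 a1 a2 a3 a4 a5 a6 a7 a8 a9 fun p q =>
    force p fun p' => force q fun q' => k p' q'

lemma orig_sound {F : List (Fin 10) → Prop} (h : Hyp F) (c : ℕ) {k : ℕ → ℕ → Bool}
    (hk : orig c k = true) : ∃ p q, Holds (valF F) p q ∧ k p q = true := by
  simp only [orig, force_eq] at hk
  have hd : ∀ m, dg c m < 10 := fun m => Nat.mod_lt _ (by norm_num)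
  exact orig10_sound h _ ⟨_, hd _⟩ ⟨_, hd _⟩ ⟨_, hd _⟩ ⟨_, hd _⟩ ⟨_, hd _⟩ ⟨_, hd _⟩ ⟨_, hd _⟩
    ⟨_, hd _⟩ ⟨_, hd _⟩ ⟨_, hd _⟩ hk

/-- One item of the certificate. -/
def item (t : Tr) (x : ℕ) (k : ℕ → ℕ → Bool) : Bool :=
  bif' (Nat.beq (Nat.land x 1) 0) (orig (Nat.shiftRight x 1) k)
    (force (Nat.land (Nat.shiftRight x 1) 8191) fun i => force (Nat.shiftRight x 14) fun y =>
      t.get i fun p q => chn t k 1000 y p q)

lemma item_sound {F : List (Fin 10) → Prop} (h : Hyp F) {t : Tr} (ht : t.All (valF F)) (x : ℕ)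
    {k : ℕ → ℕ → Bool} (hk : item t x k = true) : ∃ p q, Holds (valF F) p q ∧ k p q = true := by
  rcases bif'_elim hk with ⟨-, hk⟩ | ⟨-, hk⟩
  · exact orig_sound h _ hk
  · rw [force_eq, force_eq] at hk
    obtain ⟨p, q, h1, h2⟩ := Tr.get_sound ht _ _ hk
    exact chn_sound ht _ _ _ _ h1 h2

/-- Running the certificate. -/
def run (l : List ℕ) : Tr → ℕ → Bool :=
  List.rec (fun _ _ => false) (fun x _ g t n => item t x fun p q =>
    bif' (Nat.beq (Nat.lor p q) 0) true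
      (t.ins p q n fun t' => force (Nat.add n 1) fun n' => g t' n')) l

lemma run_sound {F : List (Fin 10) → Prop} (h : Hyp F) (l : List ℕ) :
    ∀ (t : Tr) (n : ℕ), t.All (valF F) → run l t n = true → False := by
  induction l with
  | nil => intro t n _ hk; exact absurd hk (by simp [run])
  | cons x l ih =>
    intro t n ht hk
    obtain ⟨p, q, h1, h2⟩ := item_sound h ht x hk
    rcases bif'_elim h2 with ⟨h3, -⟩ | ⟨-, h3⟩
    · have h4 : p ||| q = 0 := Nat.eq_of_beq_eq_true h3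
      rw [Nat.or_eq_zero_iff] at h4
      rw [h4.1, h4.2] at h1
      exact not_holds_zero _ h1
    · obtain ⟨t', h4, h5⟩ := Tr.ins_sound h1 ht _ _ h3
      rw [force_eq] at h5
      exact ih _ _ h4 h5

/-- The initial clauses. -/
def tr0 : Tr :=
  .node (ors [ors [0, 1, 2, 3]]) (ors [])
    (.node (ors [ors [0, 4, 5, 6]]) (ors []) (.node (ors [ors [4, 5, 7]]) (ors []) .nil .nil) .nil)
    (.node (ors [ors [1, 2, 7]]) (ors []) .nil .nil)

lemma tr0_all {F : List (Fin 10) → Prop} (h : Hyp F) (h1 : F [0, 1, 2, 3]) (h2 : F [0, 4, 5, 6])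
    (h3 : F [1, 2, 7]) (h4 : F [4, 5, 7]) : tr0.All (valF F) := by
  have u : ∀ l : List (Fin 10), F l → Holds (valF F) (ors [ors (l.map Fin.val)]) (ors []) :=
    fun l hl => holds_ors fun _ => ⟨_, List.mem_singleton_self _, (h.val_iff l).mpr hl⟩
  have e1 : ([0, 1, 2, 3] : List (Fin 10)).map Fin.val = [0, 1, 2, 3] := rfl
  have e2 : ([0, 4, 5, 6] : List (Fin 10)).map Fin.val = [0, 4, 5, 6] := rfl
  have e3 : ([1, 2, 7] : List (Fin 10)).map Fin.val = [1, 2, 7] := rfl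
  have e4 : ([4, 5, 7] : List (Fin 10)).map Fin.val = [4, 5, 7] := rfl
  have u1 := u _ h1
  have u2 := u _ h2
  have u3 := u _ h3
  have u4 := u _ h4
  rw [e1] at u1
  rw [e2] at u2
  rw [e3] at u3
  rw [e4] at u4
  simp only [tr0, Tr.All, and_true]
  exact ⟨u1, ⟨u2, u4⟩, u3⟩

end Crest.Agent.R50
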