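import Crest.Agent.R50.Prism
import Crest.Agent.R50.Cert

/-!
There is no colouring of the lines of four-space by ten colours that keeps equal colours away
from orthogonality.
-/

set_option autoImplicit false

noncomputable section

namespace Crest.Agent.R50

open List

/-- Reordering of a covering list. -/
macro "covp " h:term : term => `(fun k => (List.Perm.mem_iff (by lperm)).mp ($h k))

namespace Hyp

variable {F : List (Fin 10) → Prop} (h : Hyp F)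
include h

lemma final2 {b0 b1 b2 b3 b4 b5 b6 b7 b8 b9 : Fin 10} (hc : Cov b0 b1 b2 b3 b4 b5 b6 b7 b8 b9)
    (h1 : F [b0, b1, b2, b3]) (h2 : F [b0, b4, b5, b6]) (h3 : F [b1, b2, b7])
    (h4 : F [b4, b5, b7]) : False := by
  let b : Fin 10 → Fin 10 := ![b0, b1, b2, b3, b4, b5, b6, b7, b8, b9]
  have hb : ∀ k, ∃ i, b i = k := by
    intro k
    have := hc k
    simp only [List.mem_cons, List.not_mem_nil, or_false] at this
    rcases this with rfl | rfl | rfl | rfl | rfl | rfl | rfl | rfl | rfl | rfl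
    exacts [⟨0, rfl⟩, ⟨1, rfl⟩, ⟨2, rfl⟩, ⟨3, rfl⟩, ⟨4, rfl⟩, ⟨5, rfl⟩, ⟨6, rfl⟩, ⟨7, rfl⟩,
      ⟨8, rfl⟩, ⟨9, rfl⟩]
  have cv : ∀ {a0 a1 a2 a3 a4 a5 a6 a7 a8 a9 : Fin 10}, Cov a0 a1 a2 a3 a4 a5 a6 a7 a8 a9 →
      Cov (b a0) (b a1) (b a2) (b a3) (b a4) (b a5) (b a6) (b a7) (b a8) (b a9) := by
    intro a0 a1 a2 a3 a4 a5 a6 a7 a8 a9 ha k
    obtain ⟨i, rfl⟩ := hb k
    exact List.mem_map_of_mem (f := b) (ha i)
  have H : Hyp fun l => F (l.map b) :=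
    { mono := fun l l' hl hl' => h.mono _ _ hl fun i hi => by
        obtain ⟨j, hj, rfl⟩ := List.mem_map.mp hi
        exact List.mem_map_of_mem (hl' j hj)
      n2 := fun _ _ _ _ _ _ _ _ _ _ hc => h.n2 _ _ _ _ _ _ _ _ _ _ (cv hc)
      n1 := fun _ _ _ _ _ _ _ _ _ _ hc => h.n1 _ _ _ _ _ _ _ _ _ _ (cv hc)
      rp := fun _ _ _ _ _ _ _ _ _ _ hc => h.rp _ _ _ _ _ _ _ _ _ _ (cv hc)
      ii := fun _ _ _ _ _ _ _ _ _ _ hc => h.ii _ _ _ _ _ _ _ _ _ _ (cv hc)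
      cycA := fun _ _ _ _ _ _ _ _ _ _ hc => h.cycA _ _ _ _ _ _ _ _ _ _ (cv hc)
      cycB := fun _ _ _ _ _ _ _ _ _ _ hc => h.cycB _ _ _ _ _ _ _ _ _ _ (cv hc) }
  exact run_sound H cert tr0 5 (tr0_all H h1 h2 h3 h4) cert_ok

lemma final1 {b0 b1 b2 b3 b4 b5 b6 b7 b8 b9 : Fin 10} (hc : Cov b0 b1 b2 b3 b4 b5 b6 b7 b8 b9)
    (h1 : F [b0, b1, b2, b3]) (h2 : F [b0, b4, b5, b6]) (h3 : F [b1, b2, b7]) : False := by
  have h456 : F [b4, b5, b6] := h.mono _ _ h2 (by simp)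
  rcases h.rp b4 b5 b7 b8 b9 b6 b0 b1 b2 b3 (covp hc) h1 with h4 | h4
  · exact h.final2 hc h1 h2 h3 h4
  rcases h.rp b4 b6 b7 b8 b9 b5 b0 b1 b2 b3 (covp hc) h1 with h5 | h5
  · exact h.final2 (b8 := b8) (b9 := b9) (b6 := b5) (covp hc) h1 (h.mono _ _ h2 (by simp)) h3 h5
  rcases h.rp b5 b6 b7 b8 b9 b4 b0 b1 b2 b3 (covp hc) h1 with h6 | h6
  · exact h.final2 (b8 := b8) (b9 := b9) (b6 := b4) (covp hc) h1 (h.mono _ _ h2 (by simp)) h3 h6
  have h7 := h.cycA b8 b9 b6 b5 b4 b7 b0 b1 b2 b3 (covp hc) h1 h4 h5 h6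
  exact h.n1 b4 b5 b6 b8 b9 b7 b0 b1 b2 b3 (covp hc) h1 h456 h7

lemma final0 {b0 b1 b2 b3 b4 b5 b6 b7 b8 b9 : Fin 10} (hc : Cov b0 b1 b2 b3 b4 b5 b6 b7 b8 b9)
    (h1 : F [b0, b1, b2, b3]) (h2 : F [b0, b4, b5, b6]) : False := by
  have h123 : F [b1, b2, b3] := h.mono _ _ h1 (by simp)
  rcases h.cycB b1 b2 b7 b8 b9 b3 b0 b4 b5 b6 (covp hc) h2 h123 with h3 | h3 | h3
  · exact h.final1 hc h1 h2 h3
  · exact h.final1 (b8 := b7) (b9 := b9) (covp hc) h1 h2 h3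
  · exact h.final1 (b8 := b7) (b9 := b8) (covp hc) h1 h2 h3

lemma final3 {a0 a1 a2 a3 a4 a5 a6 a7 a8 a9 : Fin 10} (hc : Cov a0 a1 a2 a3 a4 a5 a6 a7 a8 a9)
    (h1 : F [a6, a7, a8, a9]) (h2 : F [a0, a1, a2]) : False := by
  rcases h.ii _ _ _ _ _ _ _ _ _ _ hc h1 h2 with h3 | h3 | h3 | h3
  · exact h.final0 (b7 := a3) (b8 := a4) (b9 := a5) (covp hc) h1 h3
  · exact h.final0 (b1 := a6) (b2 := a8) (b3 := a9) (b7 := a3) (b8 := a4) (b9 := a5) (covp hc)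
      (h.mono _ _ h1 (by simp)) h3
  · exact h.final0 (b1 := a6) (b2 := a7) (b3 := a9) (b7 := a3) (b8 := a4) (b9 := a5) (covp hc)
      (h.mono _ _ h1 (by simp)) h3
  · exact h.final0 (b1 := a6) (b2 := a7) (b3 := a8) (b7 := a3) (b8 := a4) (b9 := a5) (covp hc)
      (h.mono _ _ h1 (by simp)) h3

theorem no_four {l : List (Fin 10)} (h1 : l.length = 4) (h2 : l.Nodup) (h3 : F l) : False := by
  have h4 : (l.toFinsetᶜ).toList.length = 6 := by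
    rw [Finset.length_toList, Finset.card_compl, List.toFinset_card_of_nodup h2, h1]
    rfl
  have h5 : ∀ k, k ∈ (l.toFinsetᶜ).toList ++ l := by
    intro k
    by_cases hk : k ∈ l <;> simp [hk]
  generalize (l.toFinsetᶜ).toList = m at h4 h5
  match l, h1, m, h4, h3, h5 with
  | [a6, a7, a8, a9], _, [a0, a1, a2, a3, a4, a5], _, h3, h5 =>
    have hc : Cov a0 a1 a2 a3 a4 a5 a6 a7 a8 a9 := h5
    rcases h.rp _ _ _ _ _ _ _ _ _ _ hc h3 with h6 | h6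
    · exact h.final3 hc h3 h6
    · exact h.final3 (a3 := a0) (a4 := a1) (a5 := a2) (covp hc) h3 h6

end Hyp

lemma Cov.nodup {a0 a1 a2 a3 a4 a5 a6 a7 a8 a9 : Fin 10} (hc : Cov a0 a1 a2 a3 a4 a5 a6 a7 a8 a9) :
    [a0, a1, a2, a3, a4, a5].Nodup := by
  have h1 : [a0, a1, a2, a3, a4, a5, a6, a7, a8, a9].toFinset = Finset.univ :=
    Finset.eq_univ_of_forall fun k => List.mem_toFinset.mpr (hc k)
  have h2 : [a0, a1, a2, a3, a4, a5, a6, a7, a8, a9].Nodup := by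
    rw [← List.dedup_eq_self]
    apply (List.dedup_sublist _).eq_of_length
    rw [← List.card_toFinset, h1]
    rfl
  exact h2.sublist (List.take_sublist 6 [a0, a1, a2, a3, a4, a5, a6, a7, a8, a9])

lemma Col.setup {C : Col} {a0 a1 a2 a3 a4 a5 a6 a7 a8 a9 : Fin 10}
    (hc : Cov a0 a1 a2 a3 a4 a5 a6 a7 a8 a9) (h : C.Face [a6, a7, a8, a9]) :
    ∃ S : Col.Set0 C, S.σ = [a6, a7, a8, a9] ∧ [a0, a1, a2, a3, a4, a5] ~ S.L := by
  obtain ⟨S, h1, h2⟩ := Col.exists_set0 (L := [a0, a1, a2, a3, a4, a5]) h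
    (fun i => (List.mem_append.mp (hc i : i ∈ [a0, a1, a2, a3, a4, a5] ++ [a6, a7, a8, a9])).symm)
    hc.nodup
  exact ⟨S, h1, h2 ▸ Perm.refl _⟩

theorem Col.hyp (C : Col) : Hyp C.Face where
  mono _ _ h h' := h.mono h'
  n2 _ _ _ _ _ _ _ _ _ _ hc h := by
    obtain ⟨S, -, h2⟩ := Col.setup hc h
    exact S.no4 _ _ _ _ _ _ h2
  n1 _ _ _ _ _ _ _ _ _ _ hc h := by
    obtain ⟨S, -, h2⟩ := Col.setup hc h
    exact S.no33 _ _ _ _ _ _ h2
  rp _ _ _ _ _ _ _ _ _ _ hc h := by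
    obtain ⟨S, -, h2⟩ := Col.setup hc h
    exact S.ev.rp h2
  ii _ _ _ _ _ _ _ _ _ _ hc h h' := by
    obtain ⟨S, h1, h2⟩ := Col.setup hc h
    have := S.ext h2 h'
    rw [h1] at this
    simpa using this
  cycA _ _ _ _ _ _ _ _ _ _ hc h h3 h4 h5 := by
    obtain ⟨S, -, h2⟩ := Col.setup hc h
    have := S.ev.cyc h2
    by_contra h6
    simp only [Ev.t, if_pos h3, if_pos h4, if_pos h5, if_neg h6] at this
    exact absurd this (by decide)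
  cycB _ _ _ _ _ _ _ _ _ _ hc h h3 := by
    obtain ⟨S, -, h2⟩ := Col.setup hc h
    have := S.ev.cyc h2
    by_contra h6
    simp only [not_or] at h6
    simp only [Ev.t, if_pos h3, if_neg h6.1, if_neg h6.2.1, if_neg h6.2.2] at this
    exact absurd this (by decide)

theorem Col.false (C : Col) : False := by
  obtain ⟨l, h1, h2, h3⟩ := C.exists_four
  exact C.hyp.no_four h1 h2 h3

open scoped Quaternion RealInnerProductSpace

/-- The rotation matrix of a quaternion. -/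
def rot (q : ℍ[ℝ]) : EuclideanSpace ℝ (Fin 9) :=
  !₂[q.re ^ 2 + q.imI ^ 2 - q.imJ ^ 2 - q.imK ^ 2, 2 * (q.imI * q.imJ - q.re * q.imK),
    2 * (q.imI * q.imK + q.re * q.imJ), 2 * (q.imI * q.imJ + q.re * q.imK),
    q.re ^ 2 - q.imI ^ 2 + q.imJ ^ 2 - q.imK ^ 2, 2 * (q.imJ * q.imK - q.re * q.imI),
    2 * (q.imI * q.imK - q.re * q.imJ), 2 * (q.imJ * q.imK + q.re * q.imI),
    q.re ^ 2 - q.imI ^ 2 - q.imJ ^ 2 + q.imK ^ 2]

lemma rot_neg (q : ℍ[ℝ]) : rot (-q) = rot q := by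
  simp [rot]

lemma dist_rot {p q : ℍ[ℝ]} (hp : ‖p‖ = 1) (hq : ‖q‖ = 1) :
    dist (rot p) (rot q) ^ 2 = 8 - 8 * ⟪p, q⟫ ^ 2 := by
  have h1 : ⟪p, p⟫ = 1 := by rw [real_inner_self_eq_norm_sq, hp]; norm_num
  have h2 : ⟪q, q⟫ = 1 := by rw [real_inner_self_eq_norm_sq, hq]; norm_num
  have : dist (rot p) (rot q) ^ 2 =
      3 * ⟪p, p⟫ ^ 2 + 3 * ⟪q, q⟫ ^ 2 - 2 * (4 * ⟪p, q⟫ ^ 2 - ⟪p, p⟫ * ⟪q, q⟫) := by
    rw [EuclideanSpace.dist_eq, Real.sq_sqrt (by positivity)]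
    simp only [inner_eq, Real.dist_eq, sq_abs, Fin.sum_univ_succ, rot]
    simp
    ring
  rw [this, h1, h2]
  ring

theorem main :
    ∃ S : Set (EuclideanSpace ℝ (Fin 9)), Bornology.IsBounded S ∧ S.Nontrivial ∧
      ∀ c : EuclideanSpace ℝ (Fin 9) → Fin 10, ∃ i : Fin 10,
        Metric.diam S ≤ Metric.diam (S ∩ c ⁻¹' {i}) := by
  have hd : ∀ x ∈ rot '' {q | ‖q‖ = 1}, ∀ y ∈ rot '' {q | ‖q‖ = 1}, dist x y ≤ √8 := by
    rintro _ ⟨p, hp, rfl⟩ _ ⟨q, hq, rfl⟩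
    apply Real.le_sqrt_of_sq_le
    rw [dist_rot hp hq]
    nlinarith [sq_nonneg ⟪p, q⟫]
  have hb : Bornology.IsBounded (rot '' {q | ‖q‖ = 1}) :=
    Metric.isBounded_iff.mpr ⟨√8, fun x hx y hy => hd x hx y hy⟩
  refine ⟨rot '' {q | ‖q‖ = 1}, hb, ?_, ?_⟩
  · refine ⟨_, ⟨vtx 0, norm_vtx 0, rfl⟩, _, ⟨vtx 2, norm_vtx 2, rfl⟩, fun h => ?_⟩
    have := dist_rot (norm_vtx 0) (norm_vtx 2)
    rw [h, dist_self] at this
    simp [inner_eq, vtx] at this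
  intro c
  by_contra hcon
  push Not at hcon
  have h8 : Metric.diam (rot '' {q | ‖q‖ = 1}) ≤ √8 :=
    Metric.diam_le_of_forall_dist_le (by positivity) hd
  obtain ⟨i0, hi0⟩ := Finite.exists_max fun i : Fin 10 =>
    Metric.diam (rot '' {q | ‖q‖ = 1} ∩ c ⁻¹' {i})
  set d := Metric.diam (rot '' {q | ‖q‖ = 1} ∩ c ⁻¹' {i0}) with hd0
  have d0 : 0 ≤ d := Metric.diam_nonneg
  have d8 : d ^ 2 < 8 := by
    have h1 : d < √8 := (hcon i0).trans_le h8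
    have h2 := Real.sq_sqrt (show (0 : ℝ) ≤ 8 by norm_num)
    nlinarith
  refine Col.false ⟨fun q => c (rot (nz q)), √(1 - d ^ 2 / 8), Real.sqrt_pos.mpr (by linarith),
    ?_, ?_⟩
  · intro t q ht
    have : nz (t • q) = nz q ∨ nz (t • q) = -nz q := by
      simp only [nz, norm_smul, smul_smul, Real.norm_eq_abs]
      rcases lt_or_gt_of_ne ht with h | h
      · right
        rw [abs_of_neg h, ← neg_smul]
        congr 1
        field_simp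
      · left
        rw [abs_of_pos h]
        congr 1
        field_simp
    rcases this with h | h
    · simp only [h]
    · simp only [h, rot_neg]
  · intro p q hp hq h
    have e1 : nz p = p := by simp [nz, hp]
    have e2 : nz q = q := by simp [nz, hq]
    simp only [e1, e2] at h
    have h1 : dist (rot p) (rot q) ≤ d :=
      (Metric.dist_le_diam_of_mem (s := rot '' {q | ‖q‖ = 1} ∩ c ⁻¹' {c (rot p)})
        (hb.subset Set.inter_subset_left)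
        ⟨⟨p, hp, rfl⟩, rfl⟩ ⟨⟨q, hq, rfl⟩, h.symm⟩).trans (hi0 (c (rot p)))
    have h2 := dist_rot hp hq
    have h3 : dist (rot p) (rot q) ^ 2 ≤ d ^ 2 := by gcongr
    apply Real.sqrt_le_iff.mpr
    refine ⟨abs_nonneg _, ?_⟩
    rw [sq_abs]
    linarith

end Crest.Agent.R50
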