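import Crest.Agent.R50.Abstract

/-!
A triangulation of the three-sphere adapted to the generalised quaternion group of order sixteen,
and orthogonal frames attached to quaternions.
-/

set_option autoImplicit false

noncomputable section

namespace Crest.Agent.R50

open scoped Quaternion RealInnerProductSpace

/-- The cosine of a quarter of a half-turn. -/
def tt : ℝ := √2 / 2

lemma tt_sq : tt * tt = 1 / 2 := by
  have := Real.mul_self_sqrt (show (0 : ℝ) ≤ 2 by norm_num)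
  unfold tt
  nlinarith

lemma tt_pos : 0 < tt := by unfold tt; positivity

/-- A quaternion with given coordinates. -/
def qq (a b c d : ℝ) : ℍ[ℝ] := ⟨a, b, c, d⟩

@[simp] lemma qq_re (a b c d : ℝ) : (qq a b c d).re = a := rfl
@[simp] lemma qq_imI (a b c d : ℝ) : (qq a b c d).imI = b := rfl
@[simp] lemma qq_imJ (a b c d : ℝ) : (qq a b c d).imJ = c := rfl
@[simp] lemma qq_imK (a b c d : ℝ) : (qq a b c d).imK = d := rfl

/-- A primitive eighth root of unity. -/
def zt : ℍ[ℝ] := qq tt 0 0 tt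
/-- The unit `i`. -/
def qi : ℍ[ℝ] := qq 0 1 0 0
/-- The unit `j`. -/
def qj : ℍ[ℝ] := qq 0 0 1 0
/-- The unit `k`. -/
def qk : ℍ[ℝ] := qq 0 0 0 1

/-- Right multiplication. -/
def mr (a : ℍ[ℝ]) : ℍ[ℝ] →ₗ[ℝ] ℍ[ℝ] := LinearMap.mulRight ℝ a

lemma mr_apply (a q : ℍ[ℝ]) : mr a q = q * a := rfl

/-- The sixteen vertices. -/
def vtx : Fin 16 → ℍ[ℝ] :=
  ![qq 1 0 0 0, qq tt 0 0 tt, qq 0 0 0 1, qq (-tt) 0 0 tt, qq (-1) 0 0 0, qq (-tt) 0 0 (-tt),
    qq 0 0 0 (-1), qq tt 0 0 (-tt),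
    qq 0 1 0 0, qq 0 tt tt 0, qq 0 0 1 0, qq 0 (-tt) tt 0, qq 0 (-1) 0 0, qq 0 (-tt) (-tt) 0,
    qq 0 0 (-1) 0, qq 0 tt (-tt) 0]

/-- Action of the eighth root of unity on the vertices. -/
def sV : Fin 16 → Fin 16 := ![1, 2, 3, 4, 5, 6, 7, 0, 15, 8, 9, 10, 11, 12, 13, 14]
/-- Action of `i` on the vertices. -/
def iV : Fin 16 → Fin 16 := ![8, 9, 10, 11, 12, 13, 14, 15, 4, 5, 6, 7, 0, 1, 2, 3]
/-- Action of `k` on the vertices. -/
def kV : Fin 16 → Fin 16 := ![2, 3, 4, 5, 6, 7, 0, 1, 14, 15, 8, 9, 10, 11, 12, 13]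

lemma vtx_s (a : Fin 16) : vtx (sV a) = vtx a * zt := by
  have := tt_sq
  fin_cases a <;> ext <;> simp [vtx, sV, zt] <;> linarith

lemma vtx_i (a : Fin 16) : vtx (iV a) = vtx a * qi := by
  fin_cases a <;> ext <;> simp [vtx, iV, qi]

lemma vtx_k (a : Fin 16) : vtx (kV a) = vtx a * qk := by
  fin_cases a <;> ext <;> simp [vtx, kV, qk]

lemma inner_eq (a b : ℍ[ℝ]) :
    ⟪a, b⟫ = a.re * b.re + a.imI * b.imI + a.imJ * b.imJ + a.imK * b.imK := by
  simp [Quaternion.inner_def]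

lemma norm_vtx (a : Fin 16) : ‖vtx a‖ = 1 := by
  have h : ⟪vtx a, vtx a⟫ = 1 := by
    have := tt_sq
    rw [inner_eq]
    fin_cases a <;> simp [vtx] <;> linarith
  rw [real_inner_self_eq_norm_sq] at h
  have := norm_nonneg (vtx a)
  nlinarith

lemma vtx_lo (a : Fin 16) (h : a < 8) : (vtx a).imI = 0 ∧ (vtx a).imJ = 0 := by
  fin_cases a <;> simp [vtx] at h ⊢

lemma vtx_hi (a : Fin 16) (h : ¬ a < 8) : (vtx a).re = 0 ∧ (vtx a).imK = 0 := by
  fin_cases a <;> simp [vtx] at h ⊢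

/-- Adjacency of vertices. -/
def adj (a b : Fin 16) : Prop := a = b ∨ b = sV a ∨ a = sV b ∨ (a < 8 ∧ ¬ b < 8) ∨ (b < 8 ∧ ¬ a < 8)

instance (a b : Fin 16) : Decidable (adj a b) := by unfold adj; infer_instance

lemma inner_mul_zt (q : ℍ[ℝ]) : 0 ≤ ⟪q, q * zt⟫ := by
  have : ⟪q, q * zt⟫ = tt * ⟪q, q⟫ := by
    simp only [inner_eq]
    simp [zt]
    ring
  rw [this]
  exact mul_nonneg tt_pos.le real_inner_self_nonneg

lemma inner_vtx {a b : Fin 16} (h : adj a b) : 0 ≤ ⟪vtx a, vtx b⟫ := by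
  rcases h with rfl | rfl | rfl | h | h
  · exact real_inner_self_nonneg
  · rw [vtx_s]; exact inner_mul_zt _
  · rw [vtx_s, real_inner_comm]; exact inner_mul_zt _
  · simp [inner_eq, vtx_lo a h.1, vtx_hi b h.2]
  · simp [inner_eq, vtx_lo b h.1, vtx_hi a h.2]

/-- The chain of a list of vertex lists. -/
def cc (L : List (List (Fin 16))) : Ch ℍ[ℝ] := ren vtx (chain L)

lemma cc_nil : cc [] = 0 := by simp [cc, chain]

lemma cc_append (L L' : List (List (Fin 16))) : cc (L ++ L') = cc L + cc L' := by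
  rw [cc, chain_append, map_add]; rfl

lemma cc_good {L : List (List (Fin 16))} {n : ℕ} (hn : n ≤ 4)
    (h : ∀ l ∈ L, l.length = n ∧ ∀ a ∈ l, ∀ b ∈ l, adj a b) : cc L ∈ Sp (Good shell n 2) := by
  rw [cc, ren_chain]
  apply chain_mem_Sp
  intro l hl
  obtain ⟨l', hl', rfl⟩ := List.mem_map.mp hl
  have := good_of_unit ⊤ (l'.map vtx) n (by simp [(h l' hl').1]) hn (by simp [norm_vtx])
    (by simp) (by
      intro u hu v hv
      obtain ⟨a, ha, rfl⟩ := List.mem_map.mp hu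
      obtain ⟨b, hb, rfl⟩ := List.mem_map.mp hv
      exact inner_vtx ((h l' hl').2 a ha b hb))
  simpa using this

lemma ren_cc {a : ℍ[ℝ]} {f : Fin 16 → Fin 16} (h : ∀ v, vtx (f v) = vtx v * a)
    (L : List (List (Fin 16))) : ren (mr a) (cc L) = cc (L.map (List.map f)) := by
  rw [cc, cc, ren_ren, ← ren_chain, ren_ren]
  congr 2
  funext v
  simp [mr_apply, h]

lemma D_cc (h h' cI cK : List (List (Fin 16)))
    (hd : ∀ l ∈ (h.flatMap faces ++ (h' ++ h'.map (List.map sV) ++ (cI ++ cI.map (List.map iV))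
        ++ (cK ++ cK.map (List.map kV)))).map (List.insertionSort (· ≤ ·)),
      ((h.flatMap faces ++ (h' ++ h'.map (List.map sV) ++ (cI ++ cI.map (List.map iV))
        ++ (cK ++ cK.map (List.map kV)))).map (List.insertionSort (· ≤ ·))).count l % 2 = 0) :
    D (cc h) = cc h' + ren (mr zt) (cc h') + (cc cI + ren (mr qi) (cc cI))
      + (cc cK + ren (mr qk) (cc cK)) := by
  have h1 := chain_eq_zero_of_even _ hd
  rw [chain_append, CharTwo.add_eq_zero] at h1
  rw [ren_cc vtx_s, ren_cc vtx_i, ren_cc vtx_k, ← cc_append, ← cc_append, ← cc_append,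
    ← cc_append, ← cc_append, cc, D_ren, D_chain, h1, cc]

/-- The ladder chain with one vertex. -/
def g0 : List (List (Fin 16)) := [[0]]
/-- The ladder chain with two vertices. -/
def g1 : List (List (Fin 16)) := [[0, 9]]
/-- The ladder chain with three vertices. -/
def g2 : List (List (Fin 16)) := [[0, 1, 8], [0, 1, 9], [0, 7, 8], [0, 7, 11]]
/-- The ladder chain with four vertices. -/
def g3 : List (List (Fin 16)) := [[0, 1, 8, 9], [0, 1, 10, 11], [0, 1, 11, 12], [0, 1, 13, 14]]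
/-- A fundamental domain for the quaternion group. -/
def gF : List (List (Fin 16)) := g3 ++ g3.map (List.map sV)
/-- A fundamental domain for the cyclic group generated by `i`. -/
def gV : List (List (Fin 16)) := gF ++ gF.map (List.map kV)
/-- Half of the boundary of the last fundamental domain. -/
def gC : List (List (Fin 16)) :=
  [[0,1,8],[0,1,12],[0,1,13],[0,1,14],[0,7,8],[0,11,12],[0,13,14],[1,2,13],[1,2,15],[1,8,15],
    [1,12,13],[1,13,14],[2,3,8],[2,3,12],[2,3,14],[2,3,15],[2,8,15],[2,12,13],[2,14,15],[3,4,13],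
    [3,4,14],[3,4,15],[3,8,15],[3,13,14],[3,14,15],[4,13,14]]

lemma D_g0 : D (cc g0) = 1 := by
  simp [cc, g0, chain, ren_pr, D_pr, faces]

lemma D_g1 : ∃ a b, D (cc g1) = cc g0 + ren (mr zt) (cc g0) + (a + ren (mr qi) a)
    + (b + ren (mr qk) b) :=
  ⟨_, _, D_cc g1 g0 [[1]] [] (by decide +kernel)⟩

lemma D_g2 : ∃ a b, D (cc g2) = cc g1 + ren (mr zt) (cc g1) + (a + ren (mr qi) a)
    + (b + ren (mr qk) b) :=
  ⟨_, _, D_cc g2 g1 [[0,11],[1,13],[3,11]] [[1,13]] (by decide +kernel)⟩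

lemma D_g3 : ∃ a b, D (cc g3) = cc g2 + ren (mr zt) (cc g2) + (a + ren (mr qi) a)
    + (b + ren (mr qk) b) :=
  ⟨_, _, D_cc g3 g2
    [[0,1,12],[0,1,13],[0,1,14],[0,1,15],[0,11,12],[0,13,14],[1,11,12],[1,13,14]]
    [[0,7,9],[0,7,11],[0,10,11],[1,10,11]] (by decide +kernel)⟩

lemma D_gF : ∃ a b, D (cc gF) = (a + ren (mr qi) a) + (b + ren (mr qk) b) := by
  have := D_cc gF []
    [[0,1,12],[0,1,13],[0,1,14],[0,7,13],[0,7,14],[0,12,13],[0,13,14],[0,14,15],[1,2,13],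
      [1,11,12],[1,12,13],[1,13,14]]
    [[0,1,10],[0,7,9],[0,7,13],[0,7,14],[0,10,11],[0,11,12],[0,12,13],[0,14,15]]
    (by decide +kernel)
  rw [cc_nil, map_zero, add_zero, zero_add] at this
  exact ⟨_, _, this⟩

lemma D_gV : D (cc gV) = cc gC + ren (mr qi) (cc gC) := by
  have := D_cc gV [] gC [] (by decide +kernel)
  simpa [cc_nil] using this

lemma cc_gF : cc gF = cc g3 + ren (mr zt) (cc g3) := by rw [gF, cc_append, ren_cc vtx_s]

lemma cc_gV : cc gV = cc gF + ren (mr qk) (cc gF) := by rw [gV, cc_append, ren_cc vtx_k]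

lemma g0_good : cc g0 ∈ Sp (Good shell 1 2) := cc_good (by norm_num) (by decide +kernel)
lemma g1_good : cc g1 ∈ Sp (Good shell 2 2) := cc_good (by norm_num) (by decide +kernel)
lemma g2_good : cc g2 ∈ Sp (Good shell 3 2) := cc_good (by norm_num) (by decide +kernel)
lemma g3_good : cc g3 ∈ Sp (Good shell 4 2) := cc_good (by norm_num) (by decide +kernel)
lemma gF_good : cc gF ∈ Sp (Good shell 4 2) := cc_good (by norm_num) (by decide +kernel)
lemma gV_good : cc gV ∈ Sp (Good shell 4 2) := cc_good (by norm_num) (by decide +kernel)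

/-- The frame vector attached to a quaternion. -/
def fr (x e q : ℍ[ℝ]) : ℍ[ℝ] := x * (q * e * star q)

lemma fr_mul (x e q a : ℍ[ℝ]) : fr x e (q * a) = fr x (a * e * star a) q := by
  simp only [fr, star_mul, mul_assoc]

lemma fr_neg (x e q : ℍ[ℝ]) : fr x (-e) q = -fr x e q := by simp [fr]

lemma fr_ne_zero {x e q : ℍ[ℝ]} (hx : x ≠ 0) (he : e ≠ 0) (hq : q ≠ 0) : fr x e q ≠ 0 := by
  simp [fr, hx, he, hq]

lemma fr_continuous (x e : ℍ[ℝ]) : Continuous (fr x e) := by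
  unfold fr
  fun_prop

lemma inner_mul_left (a b c : ℍ[ℝ]) : ⟪a * b, a * c⟫ = ⟪a, a⟫ * ⟪b, c⟫ := by
  simp only [inner_eq]
  simp
  ring

lemma inner_mul_right (a b c : ℍ[ℝ]) : ⟪b * a, c * a⟫ = ⟪a, a⟫ * ⟪b, c⟫ := by
  simp only [inner_eq]
  simp
  ring

lemma inner_fr {e e' : ℍ[ℝ]} (h : ⟪e, e'⟫ = 0) (x q : ℍ[ℝ]) : ⟪fr x e q, fr x e' q⟫ = 0 := by
  rw [fr, fr, inner_mul_left, inner_mul_right, inner_mul_left, h]
  simp

lemma inner_fr_base {e : ℍ[ℝ]} (h : e.re = 0) (x q : ℍ[ℝ]) : ⟪fr x e q, x⟫ = 0 := by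
  have : ⟪fr x e q, x * 1⟫ = 0 := by
    rw [fr, inner_mul_left]
    have : ⟪q * e * star q, (1 : ℍ[ℝ])⟫ = 0 := by
      simp only [inner_eq]
      simp [h]
      ring
    rw [this, mul_zero]
  simpa using this

lemma qi_ne : qi ≠ 0 := fun h => by simpa [qi] using congrArg (·.imI) h
lemma qj_ne : qj ≠ 0 := fun h => by simpa [qj] using congrArg (·.imJ) h
lemma qk_ne : qk ≠ 0 := fun h => by simpa [qk] using congrArg (·.imK) h

lemma zt_i : zt * qi * star zt = qj := by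
  have := tt_sq
  ext <;> simp [zt, qi, qj] <;> linarith

lemma zt_j : zt * qj * star zt = -qi := by
  have := tt_sq
  ext <;> simp [zt, qi, qj] <;> linarith

lemma zt_k : zt * qk * star zt = qk := by
  have := tt_sq
  ext <;> simp [zt, qk] <;> linarith

lemma qi_i : qi * qi * star qi = qi := by ext <;> simp [qi]
lemma qi_j : qi * qj * star qi = -qj := by ext <;> simp [qi, qj]
lemma qi_k : qi * qk * star qi = -qk := by ext <;> simp [qi, qk]
lemma qk_i : qk * qi * star qk = -qi := by ext <;> simp [qi, qk]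
lemma qk_j : qk * qj * star qk = -qj := by ext <;> simp [qj, qk]
lemma qk_k : qk * qk * star qk = qk := by ext <;> simp [qk]

end Crest.Agent.R50
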