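import Crest.Agent.R50.Subdiv

/-!
Colourings of the lines of the quaternions without nearly orthogonal pairs of the same colour.
-/

set_option autoImplicit false

noncomputable section

namespace Crest.Agent.R50

open scoped Quaternion RealInnerProductSpace

/-- A colouring of the lines through the origin by ten colours such that two lines of the same
colour are never nearly orthogonal. -/
structure Col where
  c : ℍ[ℝ] → Fin 10
  ε : ℝ
  hε : 0 < ε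
  smul : ∀ (t : ℝ) (q : ℍ[ℝ]), t ≠ 0 → c (t • q) = c q
  sep : ∀ p q : ℍ[ℝ], ‖p‖ = 1 → ‖q‖ = 1 → c p = c q → ε ≤ |⟪p, q⟫|

/-- Normalisation. -/
def nz (v : ℍ[ℝ]) : ℍ[ℝ] := ‖v‖⁻¹ • v

lemma norm_nz {v : ℍ[ℝ]} (hv : v ≠ 0) : ‖nz v‖ = 1 := by
  have := norm_pos_iff.mpr hv
  rw [nz, norm_smul, norm_inv, norm_norm]
  field_simp

lemma inner_nz {u v : ℍ[ℝ]} : ⟪nz u, nz v⟫ = ‖u‖⁻¹ * ‖v‖⁻¹ * ⟪u, v⟫ := by
  rw [nz, nz, real_inner_smul_left, real_inner_smul_right]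
  ring

lemma nz_neg (v : ℍ[ℝ]) : nz (-v) = -nz v := by
  simp [nz]

namespace Col

variable (C : Col)

lemma c_neg (q : ℍ[ℝ]) : C.c (-q) = C.c q := by
  have := C.smul (-1) q (by norm_num)
  simpa using this

lemma c_nz {q : ℍ[ℝ]} (hq : q ≠ 0) : C.c (nz q) = C.c q :=
  C.smul _ _ (inv_ne_zero (norm_ne_zero_iff.mpr hq))

/-- Two nonzero vectors with nearly the same direction. -/
def Near (u v : ℍ[ℝ]) : Prop := u ≠ 0 ∧ v ≠ 0 ∧ ‖nz u - nz v‖ ≤ C.ε / 4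

/-- The colour `i` occurs near `u`. -/
def In (i : Fin 10) (u : ℍ[ℝ]) : Prop := ∃ w, C.Near u w ∧ C.c w = i

/-- The colours of the list occur near a common point. -/
def Face (l : List (Fin 10)) : Prop := ∃ u : ℍ[ℝ], u ≠ 0 ∧ ∀ i ∈ l, C.In i u

variable {C}

lemma Near.refl {u : ℍ[ℝ]} (hu : u ≠ 0) : C.Near u u :=
  ⟨hu, hu, by have := C.hε; simp; positivity⟩

lemma Near.In {u v : ℍ[ℝ]} (h : C.Near u v) : C.In (C.c v) u := ⟨v, h, rfl⟩

lemma In.self {u : ℍ[ℝ]} (hu : u ≠ 0) : C.In (C.c u) u := (Near.refl hu).In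

lemma In.ne_zero {i : Fin 10} {u : ℍ[ℝ]} (h : C.In i u) : u ≠ 0 := by
  obtain ⟨w, hw, _⟩ := h
  exact hw.1

lemma Face.mono {l l' : List (Fin 10)} (h : C.Face l) (hl : ∀ i ∈ l', i ∈ l) : C.Face l' := by
  obtain ⟨u, hu, h⟩ := h
  exact ⟨u, hu, fun i hi => h i (hl i hi)⟩

lemma In.inner_ge {i : Fin 10} {u v : ℍ[ℝ]} (hu : C.In i u) (hv : C.In i v) :
    C.ε / 2 ≤ |⟪nz u, nz v⟫| := by
  obtain ⟨w, ⟨hu0, hw0, hw⟩, hc⟩ := hu
  obtain ⟨w', ⟨hv0, hw0', hw'⟩, hc'⟩ := hv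
  have h1 := C.sep (nz w) (nz w') (norm_nz hw0) (norm_nz hw0')
    (by rw [C.c_nz hw0, C.c_nz hw0', hc, hc'])
  have h2 : ⟪nz w, nz w'⟫ = ⟪nz u, nz v⟫ - ⟪nz u - nz w, nz v⟫ - ⟪nz w, nz v - nz w'⟫ := by
    rw [inner_sub_left, inner_sub_right]; ring
  have h3 := abs_real_inner_le_norm (nz u - nz w) (nz v)
  have h4 := abs_real_inner_le_norm (nz w) (nz v - nz w')
  rw [norm_nz hv0, mul_one] at h3
  rw [norm_nz hw0, one_mul] at h4
  rw [h2] at h1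
  have h5 := abs_sub (⟪nz u, nz v⟫ - ⟪nz u - nz w, nz v⟫) ⟪nz w, nz v - nz w'⟫
  have h6 := abs_sub ⟪nz u, nz v⟫ ⟪nz u - nz w, nz v⟫
  linarith

lemma In.inner_ne {i : Fin 10} {u v : ℍ[ℝ]} (hu : C.In i u) (hv : C.In i v) : ⟪u, v⟫ ≠ 0 := by
  intro h
  have := hu.inner_ge hv
  rw [inner_nz, h, mul_zero, abs_zero] at this
  have := C.hε
  linarith

lemma inner_nz_pos {u v : ℍ[ℝ]} (hu : u ≠ 0) (hv : v ≠ 0) : 0 < ⟪nz u, nz v⟫ ↔ 0 < ⟪u, v⟫ := by
  have h1 := norm_pos_iff.mpr hu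
  have h2 := norm_pos_iff.mpr hv
  rw [inner_nz]
  exact mul_pos_iff_of_pos_left (by positivity)

lemma In.sign_iff {i : Fin 10} {u u' r : ℍ[ℝ]} (hu : C.In i u) (hr : C.In i r)
    (h : C.Near u u') : 0 < ⟪u, r⟫ ↔ 0 < ⟪u', r⟫ := by
  have h1 := hu.inner_ge hr
  rw [← inner_nz_pos h.1 hr.ne_zero, ← inner_nz_pos h.2.1 hr.ne_zero]
  have h3 := abs_real_inner_le_norm (nz u - nz u') (nz r)
  rw [norm_nz hr.ne_zero, mul_one, inner_sub_left] at h3
  have h4 := h3.trans h.2.2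
  have := C.hε
  rw [abs_le] at h4
  constructor
  · intro h5
    rw [abs_of_pos h5] at h1
    linarith
  · intro h5
    by_contra h6
    rw [abs_of_nonpos (not_lt.mp h6)] at h1
    linarith

variable (C)

lemma exists_eta {W : Type*} [PseudoMetricSpace W] {K : Set W} (hK : IsCompact K)
    {f : W → ℍ[ℝ]} (hf : Continuous f) (h0 : ∀ u ∈ K, f u ≠ 0) :
    ∃ η > 0, ∀ u ∈ K, ∀ v ∈ K, dist u v ≤ η → C.Near (f u) (f v) := by
  have hc : ContinuousOn (fun u => nz (f u)) K := by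
    unfold nz
    refine ContinuousOn.smul (ContinuousOn.inv₀ hf.norm.continuousOn ?_) hf.continuousOn
    intro u hu
    exact norm_ne_zero_iff.mpr (h0 u hu)
  have := hK.uniformContinuousOn_of_continuous hc
  rw [Metric.uniformContinuousOn_iff_le] at this
  obtain ⟨η, hη, h⟩ := this (C.ε / 4) (by have := C.hε; positivity)
  refine ⟨η, hη, fun u hu v hv huv => ⟨h0 u hu, h0 v hv, ?_⟩⟩
  rw [← dist_eq_norm]
  exact h u hu v hv huv

end Col

/-- A compact shell. -/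
def shell : Set ℍ[ℝ] := {q | 1 / 4 ≤ ‖q‖ ∧ ‖q‖ ≤ 1}

lemma shell_compact : IsCompact shell := by
  have h : shell = Metric.closedBall (0 : ℍ[ℝ]) 1 ∩ {q | 1 / 4 ≤ ‖q‖} := by
    ext q; simp [shell, and_comm]
  rw [h]
  exact (isCompact_closedBall _ _).inter_right (isClosed_le continuous_const continuous_norm)

lemma shell_ne_zero {q : ℍ[ℝ]} (h : q ∈ shell) : q ≠ 0 := by
  rintro rfl
  have := h.1
  norm_num at this

lemma shell_dist {u v : ℍ[ℝ]} (hu : u ∈ shell) (hv : v ∈ shell) : dist u v ≤ 2 := by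
  rw [dist_eq_norm]
  linarith [norm_sub_le u v, hu.2, hv.2]

lemma norm_list_sum_le (l : List ℍ[ℝ]) (h : ∀ v ∈ l, ‖v‖ = 1) : ‖l.sum‖ ≤ l.length := by
  induction l with
  | nil => simp
  | cons a t ih =>
    have h1 := ih fun v hv => h v (List.mem_cons_of_mem _ hv)
    have h2 := h a List.mem_cons_self
    rw [List.sum_cons, List.length_cons]
    push_cast
    linarith [norm_add_le a t.sum]

lemma one_le_inner_sum (l : List ℍ[ℝ]) (u : ℍ[ℝ]) (hu : ‖u‖ = 1) (h : ∀ v ∈ l, 0 ≤ ⟪u, v⟫) :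
    0 ≤ ⟪u, l.sum⟫ ∧ (u ∈ l → 1 ≤ ⟪u, l.sum⟫) := by
  induction l with
  | nil => simp
  | cons a t ih =>
    have h1 := ih fun v hv => h v (List.mem_cons_of_mem _ hv)
    have h2 := h a List.mem_cons_self
    rw [List.sum_cons, inner_add_right]
    refine ⟨by linarith [h1.1], fun hm => ?_⟩
    rcases List.mem_cons.mp hm with rfl | hm
    · rw [real_inner_self_eq_norm_sq, hu]
      linarith [h1.1]
    · linarith [h1.2 hm]

lemma good_of_unit (U : Submodule ℝ ℍ[ℝ]) (l : List ℍ[ℝ]) (n : ℕ) (hn : l.length = n)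
    (h4 : n ≤ 4) (h1 : ∀ v ∈ l, ‖v‖ = 1) (hU : ∀ v ∈ l, v ∈ U)
    (h : ∀ u ∈ l, ∀ v ∈ l, 0 ≤ ⟪u, v⟫) : Good (shell ∩ U) n 2 l := by
  refine ⟨hn, ⟨(Metric.closedBall 0 1 ∩ {q | 1 ≤ ⟪q, l.sum⟫}) ∩ U, ?_, ?_, ?_⟩, ?_⟩
  · refine ((convex_closedBall _ _).inter ?_).inter U.convex
    exact convex_halfSpace_ge (f := fun q : ℍ[ℝ] => ⟪q, l.sum⟫)
      ⟨fun a b => inner_add_left _ _ _, fun a b => real_inner_smul_left _ _ _⟩ 1
  · rintro q ⟨⟨hq1, hq2⟩, hq3⟩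
    refine ⟨⟨?_, by simpa using hq1⟩, hq3⟩
    have h2 := real_inner_le_norm q l.sum
    have h3 := norm_list_sum_le l h1
    have h5 : (l.length : ℝ) ≤ 4 := by rw [hn]; exact_mod_cast h4
    have h6 : (1 : ℝ) ≤ ⟪q, l.sum⟫ := hq2
    have := norm_nonneg q
    nlinarith
  · intro v hv
    exact ⟨⟨by simp [h1 v hv], (one_le_inner_sum l v (h1 v hv) (h v hv)).2 hv⟩, hU v hv⟩
  · intro u hu v hv
    rw [dist_eq_norm]
    linarith [norm_sub_le u v, h1 u hu, h1 v hv]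

/-- The orthogonal complement of few vectors contains an orthonormal family. -/
lemma exists_orthonormal (l : List ℍ[ℝ]) (k : ℕ) (h : l.length + k ≤ 4) :
    ∃ v : Fin k → ℍ[ℝ], Orthonormal ℝ v ∧
      ∀ i, v i ∈ (Submodule.span ℝ {u | u ∈ l})ᗮ := by
  classical
  set U := (Submodule.span ℝ {u | u ∈ l})ᗮ with hU
  have h1 : Module.finrank ℝ (Submodule.span ℝ {u | u ∈ l}) ≤ l.length := by
    have : {u | u ∈ l} = (l.toFinset : Set ℍ[ℝ]) := by ext; simp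
    rw [this]
    exact (finrank_span_finset_le_card l.toFinset).trans (List.toFinset_card_le l)
  have h2 := Submodule.finrank_add_finrank_orthogonal (Submodule.span ℝ {u | u ∈ l})
  rw [Quaternion.finrank_eq_four] at h2
  have h3 : k ≤ Module.finrank ℝ U := by rw [hU]; omega
  let b := stdOrthonormalBasis ℝ U
  refine ⟨fun i => (b (Fin.castLE h3 i) : ℍ[ℝ]), ?_, fun i => (b _).2⟩
  have := (b.orthonormal.comp (Fin.castLE h3) (Fin.castLE_injective h3))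
  exact this.comp_linearIsometry U.subtypeₗᵢ

lemma inner_eq_zero_of_mem_orth {l : List ℍ[ℝ]} {u v : ℍ[ℝ]} (hu : u ∈ l)
    (hv : v ∈ (Submodule.span ℝ {u | u ∈ l})ᗮ) : ⟪u, v⟫ = 0 :=
  Submodule.inner_right_of_mem_orthogonal (Submodule.subset_span hu) hv

end Crest.Agent.R50
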