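import Crest.Agent.R50.Geo

/-!
The ladder argument and Ky Fan's lemma for colourings of lines.
-/

set_option autoImplicit false

noncomputable section

namespace Crest.Agent.R50

open MvPolynomial
open scoped Quaternion RealInnerProductSpace

section Ladder

variable {V Λ : Type*} [NormedAddCommGroup V] [NormedSpace ℝ V] [LinearOrder Λ]

lemma ladder (lab : V → Λ) (s : V →ₗ[ℝ] V) (R : V → V → Prop) (r n : ℕ) (h : Ch V)
    (B B' : List Λ → ZMod 2) (hH : iter r (n + 1) h ∈ Sp (Rel R (n + 1)))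
    (hB : ∀ l, Rel R (n + 1) l → (l.map lab).Pairwise (· ≤ ·) →
      ((faces (l.map lab)).map B').sum = B (l.map lab) + evS B (pr ((l.map s).map lab))) :
    evS B (ren lab (iter r (n + 1) (h + ren s h))) = evS B' (ren lab (iter r n (D h))) := by
  rw [← D_iter, map_add, ← ren_iter, map_add, map_add, ← D_ren]
  have := Sp_sorted lab Rel.perm hH
  refine eq_of_Sp (evS B ∘ₗ ren lab + evS B ∘ₗ ren lab ∘ₗ ren s) (evS B' ∘ₗ D ∘ₗ ren lab) ?_ this
  rintro l ⟨h1, h2⟩
  simp only [LinearMap.add_apply, LinearMap.comp_apply]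
  rw [ren_pr, ren_pr, ren_pr, evS_pr _ h2, evS_D_pr _ h2, hB l h1 h2]

lemma kill {Λ : Type*} (lab : V → Λ) (f : V →ₗ[ℝ] V) (hf : ∀ q, lab (f q) = lab q) (r n : ℕ)
    (p : Ch V) : ren lab (iter r n (p + ren f p)) = 0 := by
  rw [map_add, ← ren_iter, map_add, ren_ren]
  have : lab ∘ f = lab := funext hf
  rw [this, add_self]

lemma iter_zero (r : ℕ) (p : Ch V) : iter r 0 p = p := by
  induction r with
  | zero => simp [iter]
  | succ r ih => simp [iter, ih, sd]

end Ladder

lemma faces_map {α β : Type*} (f : α → β) (l : List α) :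
    faces (l.map f) = (faces l).map (List.map f) := by
  induction l with
  | nil => simp [faces]
  | cons a t ih => simp [faces, ih, Function.comp_def]

/-- Alternating sign lists. -/
def alt : Bool → List Bool → Bool
  | _, [] => true
  | b, a :: t => a == b && alt (!b) t

/-- The Ky Fan cochain on sign lists. -/
def altZ (l : List Bool) : ZMod 2 := if alt true l then 1 else 0

lemma altZ_faces (l : List Bool) (h0 : l ≠ []) (h : l.length ≤ 4) :
    ((faces l).map altZ).sum = altZ l + altZ (l.map not) := by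
  match l, h0, h with
  | [a], _, _ => revert a; decide
  | [a, b], _, _ => revert a b; decide
  | [a, b, c], _, _ => revert a b c; decide
  | [a, b, c, d], _, _ => revert a b c d; decide
  | _ :: _ :: _ :: _ :: _ :: _, _, h => simp at h; omega

/-- The sign of a label. -/
def bit (n : ℕ) : Bool := decide (n % 2 = 1)

lemma pairwise_lt_of_alt : ∀ (l : List ℕ) (b : Bool), l.Pairwise (· ≤ ·) →
    alt b (l.map bit) = true → l.Pairwise (· < ·) := by
  intro l
  induction l with
  | nil => simp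
  | cons a t ih =>
    intro b h1 h2
    rw [List.pairwise_cons] at h1 ⊢
    simp only [List.map_cons, alt, Bool.and_eq_true, beq_iff_eq] at h2
    refine ⟨?_, ih _ h1.2 h2.2⟩
    cases t with
    | nil => simp
    | cons a' t' =>
      simp only [List.map_cons, alt, Bool.and_eq_true, beq_iff_eq] at h2
      have h3 : a ≠ a' := by
        rintro rfl
        have := h2.2.1
        rw [h2.1] at this
        simp at this
      have h4 : a < a' := lt_of_le_of_ne (h1.1 a' List.mem_cons_self) h3
      intro x hx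
      rcases List.mem_cons.mp hx with rfl | hx
      · exact h4
      · exact lt_of_lt_of_le h4 ((List.pairwise_cons.mp h1.2).1 x hx)

/-- The boundary of a cross-polytope. -/
def crossP (v : ℕ → ℍ[ℝ]) : ℕ → Ch ℍ[ℝ]
  | 0 => 1
  | k + 1 => X (v k) * crossP v k + X (-v k) * crossP v k

lemma D_crossP (v : ℕ → ℍ[ℝ]) (k : ℕ) : D (crossP v k) = 0 := by
  induction k with
  | zero => simp [crossP, D_one]
  | succ k ih => simp [crossP, D_X_mul, ih, add_self]

/-- The antipodal map. -/
def anti : ℍ[ℝ] →ₗ[ℝ] ℍ[ℝ] := -LinearMap.id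

lemma anti_apply (q : ℍ[ℝ]) : anti q = -q := rfl

lemma ren_crossP (v : ℕ → ℍ[ℝ]) (k : ℕ) : ren anti (crossP v k) = crossP v k := by
  induction k with
  | zero => simp [crossP, ren_one]
  | succ k ih => simp [crossP, ren_X_mul, ih, anti_apply, add_comm]

lemma crossP_mem (v : ℕ → ℍ[ℝ]) (n : ℕ)
    (hv : ∀ i < n, ∀ j < n, ⟪v i, v j⟫ = if i = j then 1 else 0) (k : ℕ) (hk : k ≤ n) :
    crossP v k ∈ Sp fun l => l.length = k ∧ (∀ u ∈ l, ∃ i < k, u = v i ∨ u = -v i) ∧
      ∀ u ∈ l, ∀ w ∈ l, 0 ≤ ⟪u, w⟫ := by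
  induction k with
  | zero => exact pr_mem_Sp (l := []) (by simp)
  | succ k ih =>
    have key : ∀ a : ℍ[ℝ], a = v k ∨ a = -v k → X a * crossP v k ∈ Sp fun l =>
        l.length = k + 1 ∧ (∀ u ∈ l, ∃ i < k + 1, u = v i ∨ u = -v i) ∧
          ∀ u ∈ l, ∀ w ∈ l, 0 ≤ ⟪u, w⟫ := by
      intro a ha
      refine X_mul_mem_Sp a ?_ (ih (by omega))
      rintro l ⟨h1, h2, h3⟩
      have h4 : ∀ w ∈ l, ⟪a, w⟫ = 0 := by
        intro w hw
        obtain ⟨i, hi, hw⟩ := h2 w hw
        have := hv k (by omega) i (by omega)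
        rw [if_neg (by omega)] at this
        rcases ha with rfl | rfl <;> rcases hw with rfl | rfl <;> simp [this]
      refine ⟨by simp [h1], ?_, ?_⟩
      · intro u hu
        rcases List.mem_cons.mp hu with rfl | hu
        · exact ⟨k, by omega, ha⟩
        · obtain ⟨i, hi, hw⟩ := h2 u hu
          exact ⟨i, by omega, hw⟩
      · intro u hu w hw
        rcases List.mem_cons.mp hu with hu | hu <;> rcases List.mem_cons.mp hw with hw | hw
        · rw [hu, hw]; exact real_inner_self_nonneg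
        · rw [hu]; exact (h4 w hw).ge
        · rw [hw, real_inner_comm]; exact (h4 u hu).ge
        · exact h3 u hu w hw
    exact Submodule.add_mem _ (key _ (Or.inl rfl)) (key _ (Or.inr rfl))

namespace Col

variable (C : Col)

open Classical in
/-- A reference vector of each colour. -/
def ref (i : Fin 10) : ℍ[ℝ] := if h : ∃ w : ℍ[ℝ], w ≠ 0 ∧ C.c w = i then h.choose else 0

lemma in_ref {u : ℍ[ℝ]} (hu : u ≠ 0) : C.In (C.c u) (C.ref (C.c u)) := by
  have h : ∃ w : ℍ[ℝ], w ≠ 0 ∧ C.c w = C.c u := ⟨u, hu, rfl⟩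
  rw [ref, dif_pos h]
  have := h.choose_spec
  have h2 := In.self (C := C) this.1
  rwa [this.2] at h2

/-- The Ky Fan label. -/
def klab (u : ℍ[ℝ]) : ℕ := 2 * (C.c u).val + if 0 < ⟪u, C.ref (C.c u)⟫ then 1 else 0

lemma klab_eq {u w : ℍ[ℝ]} (h : C.Near u w) (hc : C.c u = C.c w) : C.klab u = C.klab w := by
  have := (In.self (C := C) h.1).sign_iff (C.in_ref h.1) h
  rw [klab, klab, ← hc]
  simp only [this]

lemma klab_neg {u : ℍ[ℝ]} (hu : u ≠ 0) :
    C.klab (-u) + C.klab u = 4 * (C.c u).val + 1 := by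
  have := (In.self (C := C) hu).inner_ne (C.in_ref hu)
  rw [klab, klab, C.c_neg, inner_neg_left]
  rcases lt_or_gt_of_ne this with h | h
  · rw [if_pos (by linarith), if_neg (by linarith)]; omega
  · rw [if_neg (by linarith), if_pos h]; omega

lemma klab_div (u : ℍ[ℝ]) : C.klab u / 2 = (C.c u).val := by
  rw [klab]; split_ifs <;> omega

theorem kyfan (l0 : List ℍ[ℝ]) (k : ℕ) (h : l0.length + (k + 1) ≤ 4) :
    ∃ l : List (Fin 10), l.length = k + 1 ∧ l.Nodup ∧ C.Face l ∧
      ∀ i ∈ l, ∃ w : ℍ[ℝ], w ≠ 0 ∧ C.c w = i ∧ ∀ x ∈ l0, ⟪x, w⟫ = 0 := by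
  obtain ⟨v0, hv0, hU⟩ := exists_orthonormal l0 (k + 1) h
  set U := (Submodule.span ℝ {u | u ∈ l0})ᗮ with hUdef
  let v : ℕ → ℍ[ℝ] := fun i => if h : i < k + 1 then v0 ⟨i, h⟩ else 0
  have hv : ∀ i < k + 1, ∀ j < k + 1, ⟪v i, v j⟫ = if i = j then 1 else 0 := by
    intro i hi j hj
    simp only [v, dif_pos hi, dif_pos hj]
    rw [orthonormal_iff_ite.mp hv0]
    simp [Fin.ext_iff]
  have hv1 : ∀ i < k + 1, ‖v i‖ = 1 := by
    intro i hi
    simp only [v, dif_pos hi]
    exact hv0.1 _
  have hvU : ∀ i < k + 1, v i ∈ U := by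
    intro i hi
    simp only [v, dif_pos hi]
    exact hU _
  have hK : IsCompact (shell ∩ (U : Set ℍ[ℝ])) :=
    shell_compact.inter_right (Submodule.isClosed_orthogonal _)
  obtain ⟨η, hη, hη'⟩ := C.exists_eta hK continuous_id fun u hu => shell_ne_zero hu.1
  obtain ⟨r, hr⟩ := exists_iter hη
  let R : ℍ[ℝ] → ℍ[ℝ] → Prop := fun a b => C.Near a b ∧ a ∈ U
  have hR : ∀ u ∈ shell ∩ (U : Set ℍ[ℝ]), ∀ w ∈ shell ∩ (U : Set ℍ[ℝ]), dist u w ≤ η → R u w :=
    fun u hu w hw huw => ⟨hη' u hu w hw huw, hu.2⟩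
  have good : ∀ j ≤ k + 1, ∀ l : List ℍ[ℝ], l.length = j ∧
      (∀ u ∈ l, ∃ i < j, u = v i ∨ u = -v i) ∧ (∀ u ∈ l, ∀ w ∈ l, 0 ≤ ⟪u, w⟫) →
      Good (shell ∩ U) j 2 l := by
    rintro j hj l ⟨h1, h2, h3⟩
    refine good_of_unit U l j h1 (by omega) ?_ ?_ h3
    · intro u hu
      obtain ⟨i, hi, hw⟩ := h2 u hu
      rcases hw with rfl | rfl <;> simp [hv1 i (by omega)]
    · intro u hu
      obtain ⟨i, hi, hw⟩ := h2 u hu
      rcases hw with rfl | rfl <;> simp [hvU i (by omega)]
  let α : List ℕ → ZMod 2 := fun l => altZ (l.map bit)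
  have main : ∀ j ≤ k + 1, evS α (ren C.klab (iter r j (crossP v j))) = 1 := by
    intro j hj
    induction j with
    | zero =>
      rw [iter_zero, crossP, ren_one, ← pr_nil, evS_pr _ List.Pairwise.nil]
      simp [α, altZ, alt]
    | succ j ih =>
      have e1 : crossP v (j + 1) = X (v j) * crossP v j + ren anti (X (v j) * crossP v j) := by
        rw [crossP, ren_X_mul, ren_crossP, anti_apply]
      have e2 : D (X (v j) * crossP v j) = crossP v j := by
        rw [D_X_mul, D_crossP, mul_zero, add_zero]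
      rw [e1, ladder C.klab anti R r j _ α α, e2, ih (by omega)]
      · refine iter_mem_Rel (by omega) ?_ hR hr
        refine X_mul_mem_Sp _ ?_ (crossP_mem v (k + 1) hv j (by omega))
        rintro l ⟨h1, h2, h3⟩
        have h4 : ∀ w ∈ l, ⟪v j, w⟫ = 0 := by
          intro w hw
          obtain ⟨i, hi, hw⟩ := h2 w hw
          have := hv j (by omega) i (by omega)
          rw [if_neg (by omega)] at this
          rcases hw with rfl | rfl <;> simp [this]
        refine good _ hj _ ⟨by simp [h1], ?_, ?_⟩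
        · intro u hu
          rcases List.mem_cons.mp hu with rfl | hu
          · exact ⟨j, by omega, Or.inl rfl⟩
          · obtain ⟨i, hi, hw⟩ := h2 u hu
            exact ⟨i, by omega, hw⟩
        · intro u hu w hw
          rcases List.mem_cons.mp hu with rfl | hu <;> rcases List.mem_cons.mp hw with rfl | hw
          · exact real_inner_self_nonneg
          · exact (h4 w hw).ge
          · rw [real_inner_comm]; exact (h4 u hu).ge
          · exact h3 u hu w hw
      · rintro l ⟨h1, h2⟩ h3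
        have h4 : ((l.map anti).map C.klab).Pairwise (· ≤ ·) := by
          rw [List.map_map, List.pairwise_map]
          rw [List.pairwise_map] at h3
          refine h3.imp_of_mem ?_
          intro a b ha hb hab
          simp only [Function.comp_apply, anti_apply]
          have n1 := (h2 a ha b hb).1
          have i1 := C.klab_neg n1.1
          have i2 := C.klab_neg n1.2.1
          have i3 := C.klab_div a
          have i4 := C.klab_div b
          by_cases hc : C.c a = C.c b
          · have := C.klab_eq n1 hc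
            rw [hc] at i1
            omega
          · have : (C.c a).val ≠ (C.c b).val := fun h => hc (Fin.ext h)
            omega
        rw [evS_pr _ h4]
        have h5 : ((l.map anti).map C.klab).map bit = ((l.map C.klab).map bit).map not := by
          simp only [List.map_map]
          apply List.map_congr_left
          intro a ha
          have i1 := C.klab_neg (h2 a ha a ha).1.1
          show bit (C.klab (-a)) = !(bit (C.klab a))
          unfold bit
          by_cases h6 : C.klab a % 2 = 1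
          · rw [decide_eq_true h6, decide_eq_false (p := C.klab (-a) % 2 = 1) (by omega)]; rfl
          · rw [decide_eq_false h6, decide_eq_true (p := C.klab (-a) % 2 = 1) (by omega)]; rfl
        simp only [α]
        rw [h5, ← altZ_faces _ (by intro h; simp at h; simp [h] at h1) (by simp [h1]; omega),
          faces_map bit, List.map_map]
        rfl
  have hfin := main (k + 1) le_rfl
  have hmem : iter r (k + 1) (crossP v (k + 1)) ∈ Sp (Rel R (k + 1)) :=
    iter_mem_Rel (by omega) (Sp_mono (good _ le_rfl) (crossP_mem v (k + 1) hv _ le_rfl)) hR hr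
  by_contra hcon
  have := eq_of_Sp (evS α ∘ₗ ren C.klab) 0 ?_ (Sp_sorted C.klab Rel.perm hmem)
  · rw [LinearMap.comp_apply, hfin] at this
    simp at this
  rintro l ⟨⟨h1, h2⟩, h3⟩
  rw [LinearMap.comp_apply, ren_pr, evS_pr _ h3, LinearMap.zero_apply]
  simp only [α, altZ]
  rw [if_neg]
  intro h4
  have h5 := pairwise_lt_of_alt _ _ h3 h4
  apply hcon
  obtain ⟨u, hu⟩ := List.exists_mem_of_ne_nil l (by rintro rfl; simp at h1)
  refine ⟨l.map C.c, by simp [h1], ?_, ⟨u, (h2 u hu u hu).1.1, ?_⟩, ?_⟩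
  · rw [List.pairwise_map] at h5
    rw [List.Nodup, List.pairwise_map]
    refine h5.imp_of_mem ?_
    intro a b ha hb hab hc
    exact hab.ne (C.klab_eq (h2 a ha b hb).1 hc)
  · intro i hi
    obtain ⟨w, hw, rfl⟩ := List.mem_map.mp hi
    exact (h2 u hu w hw).1.In
  · intro i hi
    obtain ⟨w, hw, rfl⟩ := List.mem_map.mp hi
    exact ⟨w, (h2 w hw w hw).1.1, rfl, fun x hx => inner_eq_zero_of_mem_orth hx (h2 w hw w hw).2⟩

variable {C}

theorem three_faces {A B E : List (Fin 10)} (hA : C.Face A) (hB : C.Face B) (hE : C.Face E)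
    (h : ∀ i, i ∈ A ∨ i ∈ B ∨ i ∈ E) : False := by
  obtain ⟨u, -, hu⟩ := hA
  obtain ⟨v, -, hv⟩ := hB
  obtain ⟨w, -, hw⟩ := hE
  obtain ⟨l, h1, -, -, h2⟩ := C.kyfan [u, v, w] 0 (by simp)
  obtain ⟨i, hi⟩ := List.exists_mem_of_ne_nil l (by rintro rfl; simp at h1)
  obtain ⟨x, hx, rfl, h3⟩ := h2 i hi
  rcases h (C.c x) with h | h | h
  · exact (hu _ h).inner_ne (In.self hx) (h3 u (by simp))
  · exact (hv _ h).inner_ne (In.self hx) (h3 v (by simp))
  · exact (hw _ h).inner_ne (In.self hx) (h3 w (by simp))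

theorem two_faces {A B : List (Fin 10)} (hA : C.Face A) (hB : C.Face B) (i j : Fin 10)
    (h : ∀ k, k ∈ A ∨ k ∈ B ∨ k = i ∨ k = j) : False := by
  obtain ⟨u, hu0, hu⟩ := hA
  obtain ⟨v, hv0, hv⟩ := hB
  obtain ⟨l, h1, h2, h3, h4⟩ := C.kyfan [u, v] 1 (by simp)
  have h5 : ∀ k ∈ l, k = i ∨ k = j := by
    intro k hk
    obtain ⟨x, hx, rfl, h3⟩ := h4 k hk
    rcases h (C.c x) with h | h | h
    · exact absurd (h3 u (by simp)) ((hu _ h).inner_ne (In.self hx))
    · exact absurd (h3 v (by simp)) ((hv _ h).inner_ne (In.self hx))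
    · exact h
  refine three_faces ⟨u, hu0, hu⟩ ⟨v, hv0, hv⟩ h3 fun k => ?_
  match l, h1, h2, h5 with
  | [p, q], _, h2, h5 =>
    have hp := h5 p (by simp)
    have hq := h5 q (by simp)
    have hpq : p ≠ q := by simpa using h2
    have := h k
    simp only [List.mem_cons, List.not_mem_nil, or_false]
    grind

theorem exists_four (C : Col) : ∃ l : List (Fin 10), l.length = 4 ∧ l.Nodup ∧ C.Face l := by
  obtain ⟨l, h1, h2, h3, -⟩ := C.kyfan [] 3 (by simp)
  exact ⟨l, h1, h2, h3⟩

end Col

end Crest.Agent.R50
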