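import Crest.Agent.R50.Flag

/-!
The evaluation functional attached to a point, and the prism argument.
-/

set_option autoImplicit false

noncomputable section

namespace Crest.Agent.R50

open List
open scoped Quaternion RealInnerProductSpace

/-- First vector of the frame on the prism. -/
def px (x : ℍ[ℝ]) (p : ℝ × ℍ[ℝ]) : ℍ[ℝ] := (1 - p.1) • fr x qi p.2 + p.1 • x
/-- Second vector of the frame on the prism. -/
def py (x : ℍ[ℝ]) (p : ℝ × ℍ[ℝ]) : ℍ[ℝ] := fr x qj p.2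
/-- Third vector of the frame on the prism. -/
def pw (x : ℍ[ℝ]) (p : ℝ × ℍ[ℝ]) : ℍ[ℝ] := fr x qk p.2

lemma px_bot (x q : ℍ[ℝ]) : px x (bot q) = fr x qi q := by simp [px, bot]
lemma py_bot (x q : ℍ[ℝ]) : py x (bot q) = fr x qj q := by simp [py, bot]
lemma pw_bot (x q : ℍ[ℝ]) : pw x (bot q) = fr x qk q := by simp [pw, bot]

lemma px_ne {x : ℍ[ℝ]} (hx : x ≠ 0) {p : ℝ × ℍ[ℝ]} (hp : p.2 ≠ 0) : px x p ≠ 0 := by
  intro h
  have h1 : ⟪px x p, x⟫ = p.1 * ⟪x, x⟫ := by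
    rw [px, inner_add_left, real_inner_smul_left, real_inner_smul_left,
      inner_fr_base (by simp [qi])]
    ring
  rw [h, inner_zero_left] at h1
  have h2 : ⟪x, x⟫ ≠ 0 := inner_self_ne_zero.mpr hx
  have h3 : p.1 = 0 := by
    rcases mul_eq_zero.mp h1.symm with h | h
    · exact h
    · exact absurd h h2
  rw [px, h3] at h
  simp only [sub_zero, one_smul, zero_smul, add_zero] at h
  exact fr_ne_zero hx qi_ne hp h

lemma inner_px {e : ℍ[ℝ]} (h : ⟪qi, e⟫ = 0) (h' : e.re = 0) (x : ℍ[ℝ]) (p : ℝ × ℍ[ℝ]) :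
    ⟪px x p, fr x e p.2⟫ = 0 := by
  rw [px, inner_add_left, real_inner_smul_left, real_inner_smul_left, inner_fr h,
    real_inner_comm, inner_fr_base h']
  simp

lemma inner_px_py (x : ℍ[ℝ]) (p : ℝ × ℍ[ℝ]) : ⟪px x p, py x p⟫ = 0 :=
  inner_px (by simp [inner_eq, qi, qj]) (by simp [qj]) x p

lemma inner_px_pw (x : ℍ[ℝ]) (p : ℝ × ℍ[ℝ]) : ⟪px x p, pw x p⟫ = 0 :=
  inner_px (by simp [inner_eq, qi, qk]) (by simp [qk]) x p

lemma inner_py_pw (x : ℍ[ℝ]) (p : ℝ × ℍ[ℝ]) : ⟪py x p, pw x p⟫ = 0 :=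
  inner_fr (by simp [inner_eq, qj, qk]) x p.2

namespace Col

variable (C : Col)

/-- The label of a point of the prism. -/
def lab (x : ℍ[ℝ]) (p : ℝ × ℍ[ℝ]) : Lb := ⟨C.c (px x p), C.c (py x p), C.c (pw x p)⟩

/-- The label of a point of the sphere. -/
def lab0 (x : ℍ[ℝ]) (q : ℍ[ℝ]) : Lb := C.lab x (bot q)

lemma lab0_s (x q : ℍ[ℝ]) : C.lab0 x (mr zt q) = (C.lab0 x q).swap := by
  simp only [lab0, lab, px_bot, py_bot, pw_bot, mr_apply, fr_mul, zt_i, zt_j, zt_k, fr_neg,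
    C.c_neg, Lb.swap]

lemma lab0_i (x q : ℍ[ℝ]) : C.lab0 x (mr qi q) = C.lab0 x q := by
  simp only [lab0, lab, px_bot, py_bot, pw_bot, mr_apply, fr_mul, qi_i, qi_j, qi_k, fr_neg,
    C.c_neg]

lemma lab0_k (x q : ℍ[ℝ]) : C.lab0 x (mr qk q) = C.lab0 x q := by
  simp only [lab0, lab, px_bot, py_bot, pw_bot, mr_apply, fr_mul, qk_i, qk_j, qk_k, fr_neg,
    C.c_neg]

/-- Nearness of frames. -/
def PR (x : ℍ[ℝ]) (p p' : ℝ × ℍ[ℝ]) : Prop :=
  C.Near (px x p) (px x p') ∧ C.Near (py x p) (py x p') ∧ C.Near (pw x p) (pw x p')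

lemma exists_PR {x : ℍ[ℝ]} (hx : x ≠ 0) : ∃ η > 0, ∀ u ∈ Set.Icc (0 : ℝ) 1 ×ˢ shell,
    ∀ v ∈ Set.Icc (0 : ℝ) 1 ×ˢ shell, dist u v ≤ η → C.PR x u v := by
  have hK : IsCompact (Set.Icc (0 : ℝ) 1 ×ˢ shell) := isCompact_Icc.prod shell_compact
  have c1 := fr_continuous x qi
  have c2 := fr_continuous x qj
  have c3 := fr_continuous x qk
  obtain ⟨η1, h1, h1'⟩ := C.exists_eta hK (f := px x) (by unfold px; fun_prop)
    fun u hu => px_ne hx (shell_ne_zero hu.2)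
  obtain ⟨η2, h2, h2'⟩ := C.exists_eta hK (f := py x) (by unfold py; fun_prop)
    fun u hu => fr_ne_zero hx qj_ne (shell_ne_zero hu.2)
  obtain ⟨η3, h3, h3'⟩ := C.exists_eta hK (f := pw x) (by unfold pw; fun_prop)
    fun u hu => fr_ne_zero hx qk_ne (shell_ne_zero hu.2)
  refine ⟨min η1 (min η2 η3), by positivity, fun u hu v hv h => ?_⟩
  simp only [le_min_iff] at h
  exact ⟨h1' u hu v hv h.1, h2' u hu v hv h.2.1, h3' u hu v hv h.2.2⟩

variable {C}

lemma ne_of_near {u v v' : ℍ[ℝ]} (hu : u ≠ 0) (h : ⟪u, v⟫ = 0) (hv : C.Near v v') :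
    C.c u ≠ C.c v' := fun hc => (In.self hu).inner_ne (hc ▸ hv.In) h

lemma PR.xy {x : ℍ[ℝ]} {p p' : ℝ × ℍ[ℝ]} (h : C.PR x p p') : (C.lab x p).x ≠ (C.lab x p').y :=
  ne_of_near h.1.1 (inner_px_py x p) h.2.1

lemma PR.xz {x : ℍ[ℝ]} {p p' : ℝ × ℍ[ℝ]} (h : C.PR x p p') : (C.lab x p).x ≠ (C.lab x p').z :=
  ne_of_near h.1.1 (inner_px_pw x p) h.2.2

lemma PR.yz {x : ℍ[ℝ]} {p p' : ℝ × ℍ[ℝ]} (h : C.PR x p p') : (C.lab x p).y ≠ (C.lab x p').z :=
  ne_of_near h.2.1.1 (inner_py_pw x p) h.2.2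

lemma face_of_near {α : Type*} {l : List α} (hl : l ≠ []) (f : α → ℍ[ℝ])
    (h : ∀ u ∈ l, ∀ v ∈ l, C.Near (f u) (f v)) : C.Face (l.map fun u => C.c (f u)) := by
  obtain ⟨u, hu⟩ := List.exists_mem_of_ne_nil l hl
  refine ⟨f u, (h u hu u hu).1, fun i hi => ?_⟩
  obtain ⟨v, hv, rfl⟩ := List.mem_map.mp hi
  exact (h u hu v hv).In

/-- The data of a face, its complement and a fine subdivision level. -/
structure Set0 (C : Col) where
  σ : List (Fin 10)
  L : List (Fin 10)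
  x : ℍ[ℝ]
  r : ℕ
  η : ℝ
  hx : x ≠ 0
  hσ : ∀ i ∈ σ, C.In i x
  cov : ∀ i, i ∈ σ ∨ i ∈ L
  nodup : L.Nodup
  hη : ∀ u ∈ Set.Icc (0 : ℝ) 1 ×ˢ shell, ∀ v ∈ Set.Icc (0 : ℝ) 1 ×ˢ shell,
    dist u v ≤ η → C.PR x u v
  hr : (4 / 5 : ℝ) ^ r * 2 ≤ η

namespace Set0

variable (S : Set0 C)

lemma mem_L {u : ℍ[ℝ]} (hu : u ≠ 0) (h : ⟪u, S.x⟫ = 0) : C.c u ∈ S.L := by
  rcases S.cov (C.c u) with h1 | h1
  · exact absurd h ((In.self hu).inner_ne (S.hσ _ h1))
  · exact h1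

/-- Nearness of frames on the sphere. -/
def R0 (q q' : ℍ[ℝ]) : Prop := C.PR S.x (bot q) (bot q')

lemma fine {n : ℕ} (hn : n ≤ 5) {p : Ch ℍ[ℝ]} (hp : p ∈ Sp (Good shell n 2)) :
    iter S.r n p ∈ Sp (Rel S.R0 n) := by
  refine iter_mem_Rel hn hp ?_ S.hr
  intro u hu v hv h
  refine S.hη _ ⟨by simp [bot], by simpa [bot] using hu⟩ _ ⟨by simp [bot], by simpa [bot] using hv⟩ ?_
  simpa [bot, Prod.dist_eq] using h

lemma x_mem {q q' : ℍ[ℝ]} (h : S.R0 q q') : (C.lab0 S.x q).x ∈ S.L := by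
  refine S.mem_L h.1.1 ?_
  rw [px_bot]
  exact inner_fr_base (by simp [qi]) _ _

lemma y_mem {p p' : ℝ × ℍ[ℝ]} (h : C.PR S.x p p') : (C.lab S.x p).y ∈ S.L :=
  S.mem_L h.2.1.1 (inner_fr_base (by simp [qj]) _ _)

lemma z_mem {p p' : ℝ × ℍ[ℝ]} (h : C.PR S.x p p') : (C.lab S.x p).z ∈ S.L :=
  S.mem_L h.2.2.1 (inner_fr_base (by simp [qk]) _ _)

lemma ok {l : List ℍ[ℝ]} (h : Rel S.R0 4 l) : Ok S.L C.Face (l.map (C.lab0 S.x)) := by
  have hne : l ≠ [] := by rintro rfl; simp [Rel] at h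
  refine ⟨by simp [h.1], ?_, ?_, ?_, ?_, ?_⟩
  · intro v hv
    obtain ⟨q, hq, rfl⟩ := List.mem_map.mp hv
    have := h.2 q hq q hq
    exact ⟨S.x_mem this, S.y_mem this, S.z_mem this⟩
  · intro u hu v hv
    obtain ⟨q, hq, rfl⟩ := List.mem_map.mp hu
    obtain ⟨q', hq', rfl⟩ := List.mem_map.mp hv
    have := h.2 q hq q' hq'
    exact ⟨PR.xy this, PR.xz this, PR.yz this⟩
  · rw [List.map_map]
    exact face_of_near hne (fun q => px S.x (bot q)) fun u hu v hv => (h.2 u hu v hv).1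
  · rw [List.map_map]
    exact face_of_near hne (fun q => py S.x (bot q)) fun u hu v hv => (h.2 u hu v hv).2.1
  · rw [List.map_map]
    exact face_of_near hne (fun q => pw S.x (bot q)) fun u hu v hv => (h.2 u hu v hv).2.2

/-- The evaluation functional. -/
def E (φ : List Lb → ZMod 2) : ZMod 2 := evS φ (ren (C.lab0 S.x) (iter S.r 4 (cc gF)))

lemma kill2 (n : ℕ) (p a b : Ch ℍ[ℝ]) :
    ren (C.lab0 S.x) (iter S.r n (p + (a + ren (mr qi) a) + (b + ren (mr qk) b))) =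
      ren (C.lab0 S.x) (iter S.r n p) := by
  rw [map_add, map_add (iter S.r n) p, map_add, map_add, kill _ _ (C.lab0_i S.x),
    kill _ _ (C.lab0_k S.x), add_zero, add_zero]

lemma step (ρ : Fin 10 → Fin 6) (hρ : ∀ u ∈ S.L, ∀ v ∈ S.L, ρ u = ρ v → u = v) (n : ℕ)
    (hn : n ≤ 3) (h : Ch ℍ[ℝ]) (hh : h ∈ Sp (Good shell (n + 1) 2)) :
    evS (Bc ρ) (ren (C.lab0 S.x) (iter S.r (n + 1) (h + ren (mr zt) h))) =
      evS (Bc ρ) (ren (C.lab0 S.x) (iter S.r n (D h))) := by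
  refine ladder _ _ S.R0 _ _ _ _ _ (S.fine (by omega) hh) ?_
  rintro l ⟨h1, h2⟩ h3
  have e1 : (l.map (mr zt)).map (C.lab0 S.x) = (l.map (C.lab0 S.x)).map Lb.swap := by
    simp only [List.map_map]
    exact List.map_congr_left fun q _ => C.lab0_s _ _
  rw [e1, ← pr_perm (List.reverse_perm _), evS_pr]
  · refine Bc_faces ρ _ (by intro h; simp at h; simp [h] at h1) (by simp [h1]; omega) ?_
    intro u hu v hv
    obtain ⟨q, hq, rfl⟩ := List.mem_map.mp hu
    obtain ⟨q', hq', rfl⟩ := List.mem_map.mp hv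
    intro h4
    exact PR.xy (h2 q hq q' hq') (hρ _ (S.x_mem (h2 q hq q hq)) _ (S.y_mem (h2 q' hq' q' hq')) h4)
  · rw [List.pairwise_reverse, List.pairwise_map]
    refine h3.imp_of_mem ?_
    intro u v hu hv huv
    obtain ⟨q, hq, rfl⟩ := List.mem_map.mp hu
    obtain ⟨q', hq', rfl⟩ := List.mem_map.mp hv
    rw [Lb.le_iff] at huv ⊢
    unfold lab0 at huv ⊢
    rw [Lb.key_swap (PR.xy (h2 q hq q hq)), Lb.key_swap (PR.xy (h2 q' hq' q' hq'))]
    exact neg_le_neg huv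

lemma face_σ : C.Face S.σ := ⟨S.x, S.hx, S.hσ⟩

lemma no4 (a b c d e f : Fin 10) (h : [a, b, c, d, e, f] ~ S.L) : ¬ C.Face [a, b, c, d] := by
  intro h1
  refine two_faces S.face_σ h1 e f fun k => ?_
  have := (S.cov k).imp_right h.mem_iff.mpr
  simp only [List.mem_cons, List.not_mem_nil, or_false] at this ⊢
  tauto

lemma no33 (a b c d e f : Fin 10) (h : [a, b, c, d, e, f] ~ S.L) (h1 : C.Face [a, b, c]) :
    ¬ C.Face [d, e, f] := by
  intro h2
  refine three_faces S.face_σ h1 h2 fun k => ?_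
  have := (S.cov k).imp_right h.mem_iff.mpr
  simp only [List.mem_cons, List.not_mem_nil, or_false] at this ⊢
  tauto

/-- The evaluation functional satisfies the abstract requirements. -/
def ev : Ev S.L C.Face where
  E := S.E
  add φ ψ := evS_add _ _ _
  van φ h := by
    refine eq_of_Sp (evS φ ∘ₗ ren (C.lab0 S.x)) 0 ?_
      (Sp_sorted (C.lab0 S.x) Rel.perm (S.fine (by norm_num) gF_good))
    rintro l ⟨h1, h2⟩
    rw [LinearMap.comp_apply, ren_pr, evS_pr _ h2, h _ (S.ok h1), LinearMap.zero_apply]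
  cob γ := by
    have h1 := eq_of_Sp (evS (dl γ) ∘ₗ ren (C.lab0 S.x)) (evS γ ∘ₗ D ∘ₗ ren (C.lab0 S.x)) (by
      rintro l ⟨-, h2⟩
      simp only [LinearMap.comp_apply]
      rw [ren_pr, evS_pr _ h2, evS_D_pr _ h2, dl])
      (Sp_sorted (C.lab0 S.x) Rel.perm (S.fine (by norm_num) gF_good))
    simp only [LinearMap.comp_apply] at h1
    obtain ⟨a, b, hab⟩ := D_gF
    rw [E, h1, D_ren, D_iter, hab, ← zero_add (a + _), S.kill2]
    simp
  top ρ hρ := by
    obtain ⟨a1, b1, h1⟩ := D_g1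
    obtain ⟨a2, b2, h2⟩ := D_g2
    obtain ⟨a3, b3, h3⟩ := D_g3
    rw [E, cc_gF, S.step ρ hρ 3 le_rfl _ g3_good, h3, S.kill2,
      S.step ρ hρ 2 (by norm_num) _ g2_good, h2, S.kill2,
      S.step ρ hρ 1 (by norm_num) _ g1_good, h1, S.kill2,
      S.step ρ hρ 0 (by norm_num) _ g0_good, D_g0, iter_zero, ren_one, ← pr_nil,
      evS_pr _ List.Pairwise.nil]
    rfl
  nodup := S.nodup
  mono _ _ h h' := h.mono h'
  no4 := S.no4
  no33 := S.no33

open Classical in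
/-- The sign of a simplex. -/
def sg (a : Fin 10) (m : Multiset (ℝ × ℍ[ℝ])) : ZMod 2 :=
  if ∃ p ∈ m, C.c (px S.x p) = a ∧ 0 < ⟪px S.x p, C.ref a⟫ then 1 else 0

/-- The signed evaluation on the prism. -/
def Ψ (a : Fin 10) (Φ : List Lb → ZMod 2) : Ch (ℝ × ℍ[ℝ]) →ₗ[ZMod 2] ZMod 2 :=
  lin fun m => S.sg a m * Φ ((m.map (C.lab S.x)).sort (· ≤ ·))

lemma Ψ_pr (a : Fin 10) (Φ : List Lb → ZMod 2) {l : List (ℝ × ℍ[ℝ])}
    (h : (l.map (C.lab S.x)).Pairwise (· ≤ ·)) :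
    S.Ψ a Φ (pr l) = S.sg a l * Φ (l.map (C.lab S.x)) := by
  rw [Ψ, lin_pr, Multiset.map_coe, sort_coe_of_sorted h]

open Classical in
lemma sg_eq {a : Fin 10} {l : List (ℝ × ℍ[ℝ])} {p : ℝ × ℍ[ℝ]} (hp : p ∈ l)
    (ha : C.c (px S.x p) = a) (h : ∀ v ∈ l, C.Near (px S.x p) (px S.x v)) :
    S.sg a l = if 0 < ⟪px S.x p, C.ref a⟫ then 1 else 0 := by
  have h0 := (h p hp).1
  have : (∃ p ∈ (l : Multiset (ℝ × ℍ[ℝ])), C.c (px S.x p) = a ∧ 0 < ⟪px S.x p, C.ref a⟫) ↔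
      0 < ⟪px S.x p, C.ref a⟫ := by
    constructor
    · rintro ⟨v, hv, -, h2⟩
      subst ha
      exact ((In.self h0).sign_iff (C.in_ref h0) (h v hv)).mpr h2
    · exact fun h2 => ⟨p, hp, ha, h2⟩
  rw [sg, propext this]

lemma exists_of_cup2 {a b c : Fin 10} {β : List (Fin 10) → ZMod 2} {l : List (ℝ × ℍ[ℝ])}
    (h : cup2 (T [a, b, c]) β (l.map (C.lab S.x)) ≠ 0) {i : Fin 10} (hi : i ∈ [a, b, c]) :
    ∃ p ∈ l, C.c (px S.x p) = i := by
  have h1 := (T_ne (left_ne_zero_of_mul h)).mem_iff.mpr hi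
  obtain ⟨v, hv, h2⟩ := List.mem_map.mp h1
  obtain ⟨p, hp, rfl⟩ := List.mem_map.mp (List.mem_of_mem_take hv)
  exact ⟨p, hp, h2⟩

theorem ext {a b c d e f : Fin 10} (h : [a, b, c, d, e, f] ~ S.L) (hF : C.Face [a, b, c]) :
    ∃ i ∈ S.σ, C.Face [i, a, b, c] := by
  by_contra hcon
  push Not at hcon
  have hn : [a, b, c, d, e, f].Nodup := h.nodup_iff.mpr S.nodup
  set Φ := cup2 (T [a, b, c]) (T [d, e]) with hΦ
  have hE : S.E Φ = 1 := S.ev.E_one h hF
  have hM : iter S.r 5 (pz 4 (cc gV)) ∈ Sp (Rel (C.PR S.x) 5) :=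
    iter_mem_Rel le_rfl (pz_mem_Good (fun u hu v hv => shell_dist hu hv) gV_good) S.hη S.hr
  -- the functional vanishes on boundaries of fine simplices
  have h1 := eq_of_Sp (S.Ψ a Φ ∘ₗ D) 0 ?_ (Sp_sorted (C.lab S.x) Rel.perm hM)
  · rw [LinearMap.comp_apply, D_iter, D_pz 4 _ (Sp_mono (fun l hl => hl.1) gV_good), D_gV,
      map_add (pz _), ← ren_pz, map_add, map_add, map_add, map_add, map_add, map_add,
      ← ren_iter, ← ren_iter] at h1
    -- invariance under `i`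
    have h2 : S.Ψ a Φ ∘ₗ ren (LinearMap.prodMap (LinearMap.id : ℝ →ₗ[ℝ] ℝ) (mr qi)) =
        S.Ψ a Φ := by
      have e1 : ∀ p, px S.x (LinearMap.prodMap (LinearMap.id : ℝ →ₗ[ℝ] ℝ) (mr qi) p) =
          px S.x p := fun p => by simp [px, mr_apply, fr_mul, qi_i]
      have e2 : ∀ p, C.lab S.x (LinearMap.prodMap (LinearMap.id : ℝ →ₗ[ℝ] ℝ) (mr qi) p) =
          C.lab S.x p := fun p => by
        simp only [lab, e1]
        simp [py, pw, mr_apply, fr_mul, qi_j, qi_k, fr_neg, C.c_neg]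
      apply lin_ext
      intro l
      rw [LinearMap.comp_apply, ren_pr, Ψ, lin_pr, lin_pr, Multiset.map_coe, Multiset.map_coe,
        List.map_map]
      congr 1
      · unfold sg
        congr 1
        simp only [Multiset.mem_coe, List.mem_map, exists_exists_and_eq_and, e1]
      · congr 3
        exact List.map_congr_left fun p _ => e2 p
    have h3 := LinearMap.congr_fun h2 (iter S.r 4 (pz 3 (cc gC)))
    rw [LinearMap.comp_apply] at h3
    -- the top of the prism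
    have h4 : S.Ψ a Φ (iter S.r 4 (ren top (cc gV))) = 0 := by
      have g1 : ren top (cc gV) ∈ Sp (Good (({1} : Set ℝ) ×ˢ shell) 4 2) := by
        refine map_mem_of_Sp (ren top) _ ?_ gV_good
        rintro l ⟨l1, ⟨K, hK, hK', l2⟩, l3⟩
        rw [ren_pr]
        refine pr_mem_Sp ⟨by simp [l1], ⟨_, (convex_singleton 1).prod hK,
          Set.prod_mono le_rfl hK', ?_⟩, ?_⟩
        · intro v hv
          obtain ⟨w, hw, rfl⟩ := List.mem_map.mp hv
          exact ⟨rfl, l2 w hw⟩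
        · intro u hu v hv
          obtain ⟨w, hw, rfl⟩ := List.mem_map.mp hu
          obtain ⟨w', hw', rfl⟩ := List.mem_map.mp hv
          simpa [top, Prod.dist_eq] using l3 w hw w' hw'
      have g2 := iter_mem_Rel (R := fun p _ => p.1 = 1) (by norm_num) g1
        (fun u hu _ _ _ => hu.1) S.hr
      refine eq_of_Sp (S.Ψ a Φ) 0 ?_ (Sp_sorted (C.lab S.x) Rel.perm g2)
      rintro l ⟨l1, l2⟩
      rw [S.Ψ_pr _ _ l2, LinearMap.zero_apply]
      by_contra l3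
      obtain ⟨p, hp, hp'⟩ := S.exists_of_cup2 (right_ne_zero_of_mul l3) (i := a) (by simp)
      obtain ⟨q, hq, hq'⟩ := S.exists_of_cup2 (right_ne_zero_of_mul l3) (i := b) (by simp)
      simp only [px, l1.2 p hp p hp, l1.2 q hq q hq, sub_self, zero_smul, one_smul,
        zero_add] at hp' hq'
      have : a ≠ b := by
        intro hab
        simp [hab] at hn
      exact this (hp'.symm.trans hq')
    -- the bottom of the prism
    have h5 : S.Ψ a Φ (ren bot (iter S.r 4 (cc gV))) = S.E Φ := by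
      rw [cc_gV, map_add, ← ren_iter, map_add, map_add]
      refine eq_of_Sp (S.Ψ a Φ ∘ₗ ren bot + S.Ψ a Φ ∘ₗ ren bot ∘ₗ ren (mr qk))
        (evS Φ ∘ₗ ren (C.lab0 S.x)) ?_
        (Sp_sorted (C.lab0 S.x) Rel.perm (S.fine (by norm_num) gF_good))
      rintro l ⟨l1, l2⟩
      have e1 : (l.map bot).map (C.lab S.x) = l.map (C.lab0 S.x) := by
        rw [List.map_map]; rfl
      have e2 : ((l.map (mr qk)).map bot).map (C.lab S.x) = l.map (C.lab0 S.x) := by
        rw [List.map_map, List.map_map]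
        exact List.map_congr_left fun q _ => C.lab0_k _ _
      simp only [LinearMap.add_apply, LinearMap.comp_apply]
      rw [ren_pr, ren_pr, ren_pr, ren_pr, S.Ψ_pr _ _ (e1 ▸ l2), S.Ψ_pr _ _ (e2 ▸ l2), e1, e2,
        evS_pr _ l2, ← add_mul]
      by_cases l3 : Φ (l.map (C.lab0 S.x)) = 0
      · rw [l3, mul_zero]
      rw [← e1] at l3
      obtain ⟨p, hp, hp'⟩ := S.exists_of_cup2 l3 (i := a) (by simp)
      obtain ⟨q, hq, rfl⟩ := List.mem_map.mp hp
      have e3 : ∀ q, px S.x (bot (mr qk q)) = -px S.x (bot q) := fun q => by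
        simp [px_bot, mr_apply, fr_mul, qk_i, fr_neg]
      rw [S.sg_eq hp hp', S.sg_eq (p := bot (mr qk q))
        (List.mem_map_of_mem (List.mem_map_of_mem hq)) (by rw [e3, C.c_neg, hp']), e3,
        inner_neg_left]
      · have h0 := (l1.2 q hq q hq).1.1
        have := (In.self h0).inner_ne (C.in_ref h0)
        rw [hp'] at this
        rcases lt_or_gt_of_ne this with h6 | h6
        · rw [if_neg (by linarith), if_pos (by linarith), zero_add, one_mul]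
        · rw [if_pos h6, if_neg (by linarith), add_zero, one_mul]
      · intro v hv
        simp only [List.mem_map, exists_exists_and_eq_and] at hv
        obtain ⟨w, hw, rfl⟩ := hv
        have := (l1.2 q hq w hw).1
        rw [e3, e3]
        refine ⟨neg_ne_zero.mpr this.1, neg_ne_zero.mpr this.2.1, ?_⟩
        rw [nz_neg, nz_neg, neg_sub_neg, norm_sub_rev]
        exact this.2.2
      · intro v hv
        obtain ⟨w, hw, rfl⟩ := List.mem_map.mp hv
        exact (l1.2 q hq w hw).1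
    rw [h3, h4, h5, hE] at h1
    simp only [LinearMap.zero_apply] at h1
    grind
  rintro l ⟨⟨l1, l2⟩, l3⟩
  have hne : l ≠ [] := by rintro rfl; simp at l1
  have e1 : S.Ψ a Φ (D (pr l)) = S.sg a l * dl Φ (l.map (C.lab S.x)) := by
    rw [D_pr, map_list_sum, dl, faces_map, List.map_map, List.map_map, ← List.sum_map_mul_left]
    congr 1
    apply List.map_congr_left
    intro g hg
    have hs := (faces_sublist hg).1
    simp only [Function.comp_apply]
    rw [S.Ψ_pr _ _ (l3.sublist (hs.map _))]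
    by_cases l4 : Φ (g.map (C.lab S.x)) = 0
    · rw [l4, mul_zero, mul_zero]
    obtain ⟨p, hp, hp'⟩ := S.exists_of_cup2 l4 (i := a) (by simp)
    rw [S.sg_eq hp hp' fun v hv => (l2 p (hs.subset hp) v (hs.subset hv)).1,
      S.sg_eq (hs.subset hp) hp' fun v hv => (l2 p (hs.subset hp) v hv).1]
  have fx : C.Face ((l.map (C.lab S.x)).map Lb.x) := by
    rw [List.map_map]
    exact face_of_near hne (px S.x) fun u hu v hv => (l2 u hu v hv).1
  have fy : C.Face ((l.map (C.lab S.x)).map Lb.y) := by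
    rw [List.map_map]
    exact face_of_near hne (py S.x) fun u hu v hv => (l2 u hu v hv).2.1
  have hL : ∀ u ∈ S.L, u = a ∨ u = b ∨ u = c ∨ u = d ∨ u = e ∨ u = f := fun u hu => by
    simpa using h.mem_iff.mpr hu
  rw [LinearMap.comp_apply, e1, hΦ, cup2_leibniz _ _ _ (by simp [l1]), LinearMap.zero_apply]
  have t1 : dl (T [a, b, c]) (((l.map (C.lab S.x)).take 4).map Lb.x) = 0 := by
    by_contra t
    obtain ⟨u, hu, hu'⟩ := dl_T_ne (hn.sublist (by simp)) t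
    have t2 : C.Face [u, a, b, c] := fx.mono fun i hi =>
      ((List.take_sublist _ _).map _).subset (hu'.mem_iff.mpr hi)
    rcases S.cov u with t3 | t3
    · exact hcon u t3 t2
    · simp only [List.mem_cons, List.not_mem_nil, or_false, not_or] at hu
      rcases hL u t3 with t4 | t4 | t4 | rfl | rfl | rfl
      · exact hu.1 t4
      · exact hu.2.1 t4
      · exact hu.2.2 t4
      · exact S.no4 u a b c e f (Perm.trans (by lperm) h) t2
      · exact S.no4 u a b c d f (Perm.trans (by lperm) h) t2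
      · exact S.no4 u a b c d e (Perm.trans (by lperm) h) t2
  have t2 : T [a, b, c] (((l.map (C.lab S.x)).take 3).map Lb.x) *
      dl (T [d, e]) (((l.map (C.lab S.x)).drop 2).map Lb.y) = 0 := by
    by_contra t
    have t3 := T_ne (left_ne_zero_of_mul t)
    obtain ⟨u, hu, hu'⟩ := dl_T_ne (s := [d, e]) (hn.sublist
      (((List.take_sublist 2 [d, e, f]).cons c).cons b |>.cons a)) (right_ne_zero_of_mul t)
    have t4 : C.Face [u, d, e] := fy.mono fun i hi =>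
      ((List.drop_sublist _ _).map _).subset (hu'.mem_iff.mpr hi)
    obtain ⟨v, hv, hv'⟩ := List.mem_map.mp (hu'.mem_iff.mpr List.mem_cons_self)
    obtain ⟨p, hp, rfl⟩ := List.mem_map.mp (List.mem_of_mem_drop hv)
    have t5 : u ∉ [a, b, c] := by
      intro t6
      obtain ⟨w, hw, hw'⟩ := List.mem_map.mp (t3.mem_iff.mpr t6)
      obtain ⟨q, hq, rfl⟩ := List.mem_map.mp (List.mem_of_mem_take hw)
      exact PR.xy (l2 q hq p hp) (hw'.trans hv'.symm)
    have t6 := hL u (hv' ▸ S.y_mem (l2 p hp p hp))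
    simp only [List.mem_cons, List.not_mem_nil, or_false, not_or] at hu t5
    have t7 : u = f := by tauto
    subst t7
    exact S.no33 a b c u d e (Perm.trans (by lperm) h) hF t4
  rw [t1, t2]
  simp

end Set0

lemma exists_set0 {σ L : List (Fin 10)} (hσ : C.Face σ) (cov : ∀ i, i ∈ σ ∨ i ∈ L)
    (hL : L.Nodup) : ∃ S : Set0 C, S.σ = σ ∧ S.L = L := by
  obtain ⟨x, hx, hx'⟩ := hσ
  obtain ⟨η, hη, hη'⟩ := C.exists_PR hx
  obtain ⟨r, hr⟩ := exists_iter hη
  exact ⟨⟨σ, L, x, r, η, hx, hx', cov, hL, hη', hr⟩, rfl, rfl⟩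

end Col

end Crest.Agent.R50
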