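import Crest.Agent.R50.Chain

/-!
Barycentric subdivision and a barycentric prism operator on mod-2 chains in a real normed space.
-/

set_option autoImplicit false

noncomputable section

namespace Crest.Agent.R50

open MvPolynomial

variable {V W : Type*} [NormedAddCommGroup V] [NormedSpace ℝ V] [NormedAddCommGroup W]
  [NormedSpace ℝ W]

/-- The barycentre of a multiset of points. -/
def bary (m : Multiset V) : V := ((Multiset.card m : ℝ))⁻¹ • m.sum

lemma bary_coe (l : List V) : bary (l : Multiset V) = ((l.length : ℝ))⁻¹ • l.sum := by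
  simp [bary]

lemma bary_map (f : V →ₗ[ℝ] W) (l : List V) :
    bary ((l.map f : List W) : Multiset W) = f (bary (l : Multiset V)) := by
  rw [bary_coe, bary_coe, map_smul, map_list_sum, List.length_map]

lemma bary_mem {C : Set V} (hC : Convex ℝ C) :
    ∀ l : List V, l ≠ [] → (∀ v ∈ l, v ∈ C) → bary (l : Multiset V) ∈ C := by
  intro l
  induction l with
  | nil => simp
  | cons a t ih =>
    intro _ h
    by_cases ht : t = []
    · subst ht
      rw [bary_coe]
      simpa using h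
    · have h1 := ih ht fun v hv => h v (List.mem_cons_of_mem _ hv)
      have h2 := h a List.mem_cons_self
      have hn : (0 : ℝ) < t.length := by
        have := List.length_pos_iff.mpr ht
        exact_mod_cast this
      have := hC h2 h1 (a := ((t.length : ℝ) + 1)⁻¹) (b := (t.length : ℝ) / (t.length + 1))
        (by positivity) (by positivity) (by field_simp; ring)
      convert this using 1
      rw [bary_coe, bary_coe, List.sum_cons, List.length_cons, smul_add, smul_smul]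
      push_cast
      congr 2
      field_simp

lemma sum_sub_norm_le (l : List V) (w : V) (d : ℝ) (h : ∀ u ∈ l, dist u w ≤ d) :
    ‖l.sum - (l.length : ℝ) • w‖ ≤ l.length * d := by
  induction l with
  | nil => simp
  | cons a t ih =>
    have h1 := ih fun u hu => h u (List.mem_cons_of_mem _ hu)
    have h2 := h a List.mem_cons_self
    rw [dist_eq_norm] at h2
    have : (a :: t).sum - ((a :: t).length : ℝ) • w = (a - w) + (t.sum - (t.length : ℝ) • w) := by
      rw [List.sum_cons, List.length_cons]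
      push_cast
      rw [add_smul, one_smul]
      abel
    rw [this, List.length_cons]
    push_cast
    have := norm_add_le (a - w) (t.sum - (t.length : ℝ) • w)
    linarith

lemma dist_bary_le (l : List V) (hl : l.length ≤ 5) (d : ℝ) (h : ∀ u ∈ l, ∀ v ∈ l, dist u v ≤ d)
    (w : V) (hw : w ∈ l) : dist w (bary (l : Multiset V)) ≤ 4 / 5 * d := by
  classical
  have hd : 0 ≤ d := le_trans dist_nonneg (h w hw w hw)
  have hp : l.Perm (w :: l.erase w) := List.perm_cons_erase hw
  have hs : l.sum = w + (l.erase w).sum := by rw [hp.sum_eq, List.sum_cons]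
  have hlen : l.length = (l.erase w).length + 1 := by rw [hp.length_eq, List.length_cons]
  have h1 := sum_sub_norm_le (l.erase w) w d fun u hu => h u (List.mem_of_mem_erase hu) w hw
  set k := (l.erase w).length with hk
  have hk4 : (k : ℝ) ≤ 4 := by
    have : k ≤ 4 := by omega
    exact_mod_cast this
  have hk0 : (0 : ℝ) ≤ k := Nat.cast_nonneg _
  rw [dist_comm, dist_eq_norm, bary_coe, hs, hlen]
  have : (((k + 1 : ℕ) : ℝ))⁻¹ • (w + (l.erase w).sum) - w =
      ((k : ℝ) + 1)⁻¹ • ((l.erase w).sum - (k : ℝ) • w) := by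
    push_cast
    have h0 : (k : ℝ) + 1 ≠ 0 := by positivity
    have : w = ((k : ℝ) + 1)⁻¹ • (((k : ℝ) + 1) • w) := by
      rw [smul_smul, inv_mul_cancel₀ h0, one_smul]
    conv_lhs => rw [sub_eq_add_neg, this]
    rw [← this]
    conv_lhs => enter [2]; rw [this]
    rw [← smul_neg, ← smul_add, add_smul, one_smul]
    congr 1
    abel
  rw [this, norm_smul, norm_inv, Real.norm_of_nonneg (by positivity)]
  rw [inv_mul_le_iff₀ (by positivity)]
  nlinarith

/-- Barycentric subdivision of chains of simplices with `n` vertices. -/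
def sd : ℕ → Ch V →ₗ[ZMod 2] Ch V
  | 0 => LinearMap.id
  | n + 1 => lin fun m => X (bary m) * sd n (D (prM m))

lemma sd_succ_pr (n : ℕ) (l : List V) :
    sd (n + 1) (pr l) = X (bary (l : Multiset V)) * sd n (D (pr l)) := by
  rw [sd, lin_pr, prM_coe]

lemma D_sd (n : ℕ) (p : Ch V) : D (sd (n + 1) p) = sd n (D p) := by
  induction n generalizing p with
  | zero =>
    have : (D ∘ₗ sd 1 : Ch V →ₗ[ZMod 2] Ch V) = sd 0 ∘ₗ D := by
      apply lin_ext
      intro l
      simp only [LinearMap.comp_apply]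
      rw [sd_succ_pr, D_X_mul]
      simp [sd, D_D]
    exact LinearMap.congr_fun this p
  | succ n ih =>
    have : (D ∘ₗ sd (n + 2) : Ch V →ₗ[ZMod 2] Ch V) = sd (n + 1) ∘ₗ D := by
      apply lin_ext
      intro l
      simp only [LinearMap.comp_apply]
      rw [sd_succ_pr, D_X_mul, ih, D_D]
      simp
    exact LinearMap.congr_fun this p

lemma ren_sd (f : V →ₗ[ℝ] W) (n : ℕ) (p : Ch V) : ren f (sd n p) = sd n (ren f p) := by
  induction n generalizing p with
  | zero => simp [sd]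
  | succ n ih =>
    have : (ren f ∘ₗ sd (n + 1) : Ch V →ₗ[ZMod 2] Ch W) = sd (n + 1) ∘ₗ ren f := by
      apply lin_ext
      intro l
      simp only [LinearMap.comp_apply]
      rw [sd_succ_pr, ren_X_mul, ih, ren_pr, sd_succ_pr, bary_map, ← D_ren, ren_pr]
    exact LinearMap.congr_fun this p

lemma X_mul_mem_Sp {α : Type*} {Q Q' : List α → Prop} (a : α) (h : ∀ l, Q l → Q' (a :: l))
    {p : Ch α} (hp : p ∈ Sp Q) : X a * p ∈ Sp Q' :=
  map_mem_of_Sp (LinearMap.mulLeft (ZMod 2) (X a)) (Sp Q')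
    (fun l hl => by
      rw [LinearMap.mulLeft_apply, ← pr_cons]
      exact pr_mem_Sp (h l hl)) hp

lemma sd_pr_mem (d : ℝ) : ∀ (n : ℕ) (l : List V), l.length = n → n ≤ 5 →
    (∀ u ∈ l, ∀ v ∈ l, dist u v ≤ d) →
    sd n (pr l) ∈ Sp fun l' => l'.length = n ∧
      (∀ C : Set V, Convex ℝ C → (∀ v ∈ l, v ∈ C) → ∀ v ∈ l', v ∈ C) ∧
      ∀ u ∈ l', ∀ v ∈ l', dist u v ≤ 4 / 5 * d := by
  intro n
  induction n with
  | zero =>
    intro l hl _ _
    have : l = [] := List.length_eq_zero_iff.mp hl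
    subst this
    exact pr_mem_Sp (by simp)
  | succ n ih =>
    intro l hl hn hd
    have hne : l ≠ [] := by rintro rfl; simp at hl
    rw [sd_succ_pr, D_pr, map_list_sum, ← List.sum_map_mul_left]
    apply list_sum_mem
    intro x hx
    simp only [List.map_map, List.mem_map, Function.comp_apply] at hx
    obtain ⟨f, hf, rfl⟩ := hx
    obtain ⟨hsub, hlen⟩ := faces_sublist hf
    have hfl : ∀ v ∈ f, v ∈ l := fun v hv => hsub.subset hv
    have := ih f (by omega) (by omega) fun u hu v hv => hd u (hfl u hu) v (hfl v hv)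
    refine X_mul_mem_Sp _ ?_ this
    rintro l' ⟨h1, h2, h3⟩
    have hb : ∀ v ∈ l', dist v (bary (l : Multiset V)) ≤ 4 / 5 * d := by
      intro v hv
      exact h2 (Metric.closedBall (bary (l : Multiset V)) (4 / 5 * d)) (convex_closedBall _ _)
        (fun w hw => dist_bary_le l (by omega) d hd w (hfl w hw)) v hv
    have hd0 : 0 ≤ d := by
      obtain ⟨w, hw⟩ := List.exists_mem_of_ne_nil l hne
      exact le_trans dist_nonneg (hd w hw w hw)
    refine ⟨by simp [h1], ?_, ?_⟩
    · intro C hC hlC v hv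
      rcases List.mem_cons.mp hv with rfl | hv
      · exact bary_mem hC l hne hlC
      · exact h2 C hC (fun w hw => hlC w (hfl w hw)) v hv
    · intro u hu v hv
      rcases List.mem_cons.mp hu with rfl | hu <;> rcases List.mem_cons.mp hv with rfl | hv
      · simp; positivity
      · rw [dist_comm]; exact hb v hv
      · exact hb u hu
      · exact h3 u hu v hv

/-- Simplices with `n` vertices, carried by a convex subset of `K`, of diameter at most `d`. -/
def Good (K : Set V) (n : ℕ) (d : ℝ) (l : List V) : Prop :=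
  l.length = n ∧ (∃ C : Set V, Convex ℝ C ∧ C ⊆ K ∧ ∀ v ∈ l, v ∈ C) ∧
    ∀ u ∈ l, ∀ v ∈ l, dist u v ≤ d

lemma sd_mem_Good {K : Set V} {n : ℕ} (hn : n ≤ 5) {d : ℝ} {p : Ch V} (hp : p ∈ Sp (Good K n d)) :
    sd n p ∈ Sp (Good K n (4 / 5 * d)) := by
  refine map_mem_of_Sp (sd n) _ ?_ hp
  rintro l ⟨h1, ⟨C, hC, hCK, hlC⟩, h3⟩
  refine Sp_mono ?_ (sd_pr_mem d n l h1 hn h3)
  rintro l' ⟨h4, h5, h6⟩
  exact ⟨h4, ⟨C, hC, hCK, h5 C hC hlC⟩, h6⟩

/-- Iterated subdivision. -/
def iter : ℕ → ℕ → Ch V →ₗ[ZMod 2] Ch V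
  | 0, _ => LinearMap.id
  | r + 1, n => sd n ∘ₗ iter r n

lemma D_iter (r n : ℕ) (p : Ch V) : D (iter r (n + 1) p) = iter r n (D p) := by
  induction r with
  | zero => simp [iter]
  | succ r ih => simp only [iter, LinearMap.comp_apply]; rw [D_sd, ih]

lemma ren_iter (f : V →ₗ[ℝ] W) (r n : ℕ) (p : Ch V) :
    ren f (iter r n p) = iter r n (ren f p) := by
  induction r with
  | zero => simp [iter]
  | succ r ih => simp only [iter, LinearMap.comp_apply]; rw [ren_sd, ih]

lemma iter_mem_Good {K : Set V} {n : ℕ} (hn : n ≤ 5) {d : ℝ} {p : Ch V}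
    (hp : p ∈ Sp (Good K n d)) (r : ℕ) : iter r n p ∈ Sp (Good K n ((4 / 5) ^ r * d)) := by
  induction r with
  | zero => simpa [iter] using hp
  | succ r ih =>
    have := sd_mem_Good hn ih
    rw [pow_succ', mul_assoc]
    exact this

/-- Simplices with `n` vertices whose vertices are pairwise related. -/
def Rel {α : Type*} (R : α → α → Prop) (n : ℕ) (l : List α) : Prop :=
  l.length = n ∧ ∀ u ∈ l, ∀ v ∈ l, R u v

lemma Rel.perm {α : Type*} {R : α → α → Prop} {n : ℕ} (l l' : List α) (h : l.Perm l')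
    (hl : Rel R n l) : Rel R n l' :=
  ⟨h.length_eq ▸ hl.1, fun u hu v hv => hl.2 u (h.mem_iff.mpr hu) v (h.mem_iff.mpr hv)⟩

lemma iter_mem_Rel {K : Set V} {n : ℕ} (hn : n ≤ 5) {p : Ch V}
    (hp : p ∈ Sp (Good K n 2)) {R : V → V → Prop} {η : ℝ}
    (hR : ∀ u ∈ K, ∀ v ∈ K, dist u v ≤ η → R u v) {r : ℕ} (hr : (4 / 5 : ℝ) ^ r * 2 ≤ η) :
    iter r n p ∈ Sp (Rel R n) := by
  refine Sp_mono ?_ (iter_mem_Good hn hp r)
  rintro l ⟨h1, ⟨C, _, hCK, hlC⟩, h3⟩
  exact ⟨h1, fun u hu v hv => hR u (hCK (hlC u hu)) v (hCK (hlC v hv)) ((h3 u hu v hv).trans hr)⟩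

lemma exists_iter {η : ℝ} (hη : 0 < η) : ∃ r : ℕ, (4 / 5 : ℝ) ^ r * 2 ≤ η := by
  obtain ⟨r, hr⟩ := exists_pow_lt_of_lt_one (x := η / 2) (y := 4 / 5) (by positivity) (by norm_num)
  exact ⟨r, by linarith⟩

/-- Bottom of the prism. -/
def bot : V →ₗ[ℝ] ℝ × V := LinearMap.inr ℝ ℝ V

/-- Top of the prism. -/
def top (v : V) : ℝ × V := (1, v)

/-- The barycentric prism operator. -/
def pz : ℕ → Ch V →ₗ[ZMod 2] Ch (ℝ × V)
  | 0 => 0
  | n + 1 => lin fun m => X ((1 / 2 : ℝ), bary m) *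
      (ren bot (prM m) + ren top (prM m) + pz n (D (prM m)))

lemma pz_succ_pr (n : ℕ) (l : List V) :
    pz (n + 1) (pr l) = X ((1 / 2 : ℝ), bary (l : Multiset V)) *
      (ren bot (pr l) + ren top (pr l) + pz n (D (pr l))) := by
  rw [pz, lin_pr, prM_coe]

lemma D_mem_len {α : Type*} {n : ℕ} {p : Ch α} (hp : p ∈ Sp fun l => l.length = n + 1) :
    D p ∈ Sp fun l : List α => l.length = n := by
  refine map_mem_of_Sp D _ ?_ hp
  intro l hl
  rw [D_pr]
  apply list_sum_mem
  intro x hx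
  obtain ⟨f, hf, rfl⟩ := List.mem_map.mp hx
  exact pr_mem_Sp (by have := (faces_sublist hf).2; show f.length = n; omega)

lemma D_pz (n : ℕ) : ∀ p : Ch V, p ∈ (Sp fun l => l.length = n) →
    D (pz n p) = ren bot p + ren top p + pz (n - 1) (D p) := by
  induction n with
  | zero =>
    intro p hp
    refine eq_of_Sp (D ∘ₗ pz 0) (ren bot + ren top + pz 0 ∘ₗ D) ?_ hp
    intro l hl
    have : l = [] := List.length_eq_zero_iff.mp hl
    subst this
    simp [pz, ren_one, add_self]
  | succ n ih =>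
    intro p hp
    refine eq_of_Sp (D ∘ₗ pz (n + 1)) (ren bot + ren top + pz n ∘ₗ D) ?_ hp
    intro l hl
    simp only [LinearMap.comp_apply, LinearMap.add_apply]
    rw [pz_succ_pr, D_X_mul, map_add, map_add, ih _ (D_mem_len (pr_mem_Sp hl)), D_D, map_zero,
      add_zero, D_ren, D_ren, add_self, mul_zero, add_zero]

lemma ren_pz (f : V →ₗ[ℝ] V) (n : ℕ) (p : Ch V) :
    ren (LinearMap.prodMap (LinearMap.id : ℝ →ₗ[ℝ] ℝ) f) (pz n p) = pz n (ren f p) := by
  induction n generalizing p with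
  | zero => simp [pz]
  | succ n ih =>
    have : (ren (LinearMap.prodMap (LinearMap.id : ℝ →ₗ[ℝ] ℝ) f) ∘ₗ pz (n + 1) :
        Ch V →ₗ[ZMod 2] Ch (ℝ × V)) = pz (n + 1) ∘ₗ ren f := by
      apply lin_ext
      intro l
      simp only [LinearMap.comp_apply]
      rw [pz_succ_pr, ren_X_mul, map_add, map_add, ih, ren_ren, ren_ren, ren_pr f, pz_succ_pr,
        bary_map, ← ren_pr f, ren_ren, ren_ren, D_ren]
      rfl
    exact LinearMap.congr_fun this p

lemma pz_pr_mem : ∀ (n : ℕ) (l : List V), l.length = n →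
    pz n (pr l) ∈ Sp fun l' => l'.length = n + 1 ∧
      (∀ C : Set V, Convex ℝ C → (∀ v ∈ l, v ∈ C) → ∀ v ∈ l', v ∈ Set.Icc (0 : ℝ) 1 ×ˢ C) := by
  intro n
  induction n with
  | zero => intro l _; simp [pz]
  | succ n ih =>
    intro l hl
    have hne : l ≠ [] := by rintro rfl; simp at hl
    rw [pz_succ_pr]
    refine X_mul_mem_Sp (Q := fun l' => l'.length = n + 1 ∧
      (∀ C : Set V, Convex ℝ C → (∀ v ∈ l, v ∈ C) → ∀ v ∈ l', v ∈ Set.Icc (0 : ℝ) 1 ×ˢ C)) _ ?_ ?_
    · rintro l' ⟨h1, h2⟩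
      refine ⟨by simp [h1], ?_⟩
      intro C hC hlC v hv
      rcases List.mem_cons.mp hv with rfl | hv
      · exact ⟨by norm_num, bary_mem hC l hne hlC⟩
      · exact h2 C hC hlC v hv
    · refine Submodule.add_mem _ (Submodule.add_mem _ ?_ ?_) ?_
      · rw [ren_pr]
        refine pr_mem_Sp ⟨by simp [hl], ?_⟩
        intro C _ hlC v hv
        obtain ⟨w, hw, rfl⟩ := List.mem_map.mp hv
        exact ⟨by simp [bot], by simpa [bot] using hlC w hw⟩
      · rw [ren_pr]
        refine pr_mem_Sp ⟨by simp [hl], ?_⟩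
        intro C _ hlC v hv
        obtain ⟨w, hw, rfl⟩ := List.mem_map.mp hv
        exact ⟨by simp [top], by simpa [top] using hlC w hw⟩
      · rw [D_pr, map_list_sum]
        apply list_sum_mem
        intro x hx
        simp only [List.map_map, List.mem_map, Function.comp_apply] at hx
        obtain ⟨f, hf, rfl⟩ := hx
        obtain ⟨hsub, hlen⟩ := faces_sublist hf
        refine Sp_mono ?_ (ih f (by omega))
        rintro l' ⟨h1, h2⟩
        exact ⟨h1, fun C hC hlC => h2 C hC fun v hv => hlC v (hsub.subset hv)⟩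

lemma pz_mem_Good {K : Set V} (hK : ∀ u ∈ K, ∀ v ∈ K, dist u v ≤ 2) {n : ℕ} {d : ℝ} {p : Ch V}
    (hp : p ∈ Sp (Good K n d)) : pz n p ∈ Sp (Good (Set.Icc (0 : ℝ) 1 ×ˢ K) (n + 1) 2) := by
  refine map_mem_of_Sp (pz n) _ ?_ hp
  rintro l ⟨h1, ⟨C, hC, hCK, hlC⟩, _⟩
  refine Sp_mono ?_ (pz_pr_mem n l h1)
  rintro l' ⟨h4, h5⟩
  refine ⟨h4, ⟨_, (convex_Icc 0 1).prod hC, Set.prod_mono le_rfl hCK, h5 C hC hlC⟩, ?_⟩
  intro u hu v hv
  have hu' := h5 C hC hlC u hu
  have hv' := h5 C hC hlC v hv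
  rw [Prod.dist_eq]
  refine max_le ?_ (hK _ (hCK hu'.2) _ (hCK hv'.2))
  rw [Real.dist_eq, abs_le]
  constructor <;> linarith [hu'.1.1, hu'.1.2, hv'.1.1, hv'.1.2]

end Crest.Agent.R50
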